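import Mathlib.Algebra.MonoidAlgebra.Module
import Mathlib.Algebra.MonoidAlgebra.Basic
import Mathlib.Algebra.Algebra.ZMod
import Mathlib.FieldTheory.Finite.Basic
import Mathlib.GroupTheory.FinitelyPresentedGroup
import Mathlib.RingTheory.Ideal.Quotient.Operations
import Mathlib.Tactic

/-!
Algebra: from a twisted group algebra to the group algebra of the central extension; reduction to a
finitely presented group; change of the coefficient ring and of the group.
-/

namespace Vale.Agent.N194P

open Finset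

universe u v

/-- the group ring is not directly finite -/
def NDF (R : Type u) [Ring R] (G : Type v) [Group G] : Prop :=
  ∃ a b : MonoidAlgebra R G, a * b = 1 ∧ b * a ≠ 1

section Idem

variable {k : Type} [Field k] [Fintype k] [DecidableEq k] {Γ : Type} [Group Γ]

/-- the idempotent of the identity character of the scalars -/
noncomputable def eps (ζ : kˣ →* Γ) : MonoidAlgebra k Γ :=
  - ∑ c : kˣ, MonoidAlgebra.single (ζ c) ((c⁻¹ : kˣ) : k)

theorem card_units_cast : (Fintype.card kˣ : k) = -1 := by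
  rw [Fintype.card_units, Nat.cast_sub Fintype.card_pos, FiniteField.cast_card_eq_zero]
  simp

theorem single_mul_eps (ζ : kˣ →* Γ) (c : kˣ) :
    MonoidAlgebra.single (ζ c) (1 : k) * eps ζ = (c : k) • eps ζ := by
  unfold eps
  rw [mul_neg, smul_neg, mul_sum, smul_sum]
  congr 1
  refine Fintype.sum_equiv (Equiv.mulLeft c) _ _ fun d => ?_
  rw [MonoidAlgebra.single_mul_single, MonoidAlgebra.smul_single, ← map_mul]
  simp only [Equiv.coe_mulLeft, mul_inv_rev, Units.val_mul, smul_eq_mul, one_mul]
  rw [mul_left_comm, Units.mul_inv, mul_one]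

theorem eps_mul_eps (ζ : kˣ →* Γ) : eps ζ * eps ζ = eps ζ := by
  have h1 : ∀ c : kˣ, MonoidAlgebra.single (ζ c) ((c⁻¹ : kˣ) : k) * eps ζ = eps ζ := by
    intro c
    have h2 : MonoidAlgebra.single (ζ c) ((c⁻¹ : kˣ) : k) =
        ((c⁻¹ : kˣ) : k) • MonoidAlgebra.single (ζ c) (1 : k) := by
      rw [MonoidAlgebra.smul_single, smul_eq_mul, mul_one]
    rw [h2, smul_mul_assoc, single_mul_eps, smul_smul, Units.inv_mul, one_smul]
  conv_lhs => rw [eps]
  rw [neg_mul, sum_mul]
  change - ∑ c : kˣ, MonoidAlgebra.single (ζ c) ((c⁻¹ : kˣ) : k) * eps ζ = eps ζ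
  simp only [h1]
  rw [sum_const, card_univ, ← Nat.cast_smul_eq_nsmul k, card_units_cast, neg_smul, one_smul,
    neg_neg]

theorem eps_comm (ζ : kˣ →* Γ) (hc : ∀ c g, ζ c * g = g * ζ c) (f : MonoidAlgebra k Γ) :
    eps ζ * f = f * eps ζ := by
  induction f using MonoidAlgebra.induction_linear with
  | zero => simp
  | add f g hf hg => rw [mul_add, add_mul, hf, hg]
  | single g r =>
    unfold eps
    rw [neg_mul, mul_neg, sum_mul, mul_sum]
    congr 1
    refine sum_congr rfl fun c _ => ?_
    rw [MonoidAlgebra.single_mul_single, MonoidAlgebra.single_mul_single, hc, mul_comm r]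

/-- If in every algebra generated by `Γ` in which the central subgroup acts by scalars some
`a (1 - T ^ M) b` is `1`, then the group algebra is not directly finite. -/
theorem ndf_of_quot (ζ : kˣ →* Γ) (hc : ∀ c g, ζ c * g = g * ζ c) (T : Γ)
    (hinj : ∀ (c c' : kˣ) (n n' : ℤ), ζ c * T ^ n = ζ c' * T ^ n' → c = c')
    (h : ∀ (A : Type) [Ring A] [Algebra k A] (μ : Γ →* A), (∀ c, μ (ζ c) = algebraMap k A c) →
      ∃ (a b : A) (M : ℤ), a * (1 - μ (T ^ M)) * b = 1) : NDF k Γ := by
  classical
  let I : Ideal (MonoidAlgebra k Γ) :=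
    { carrier := {x | x * eps ζ = 0}
      add_mem' := fun {a b} ha hb => by
        change (a + b) * eps ζ = 0
        rw [add_mul, ha, hb, add_zero]
      zero_mem' := zero_mul _
      smul_mem' := fun c {x} hx => by
        change c * x * eps ζ = 0
        rw [mul_assoc, hx, mul_zero] }
  have hI : ∀ x, x ∈ I ↔ x * eps ζ = 0 := fun _ => Iff.rfl
  have : I.IsTwoSided := ⟨fun {a} b ha => by
    rw [hI] at ha ⊢
    rw [mul_assoc, ← eps_comm ζ hc, ← mul_assoc, ha, zero_mul]⟩
  obtain ⟨a, b, M, hab⟩ := h (MonoidAlgebra k Γ ⧸ I)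
    ((Ideal.Quotient.mk I).toMonoidHom.comp (MonoidAlgebra.of k Γ)) (by
      intro c
      rw [← Ideal.Quotient.mk_algebraMap]
      change Ideal.Quotient.mk I (MonoidAlgebra.single (ζ c) 1) = _
      rw [Ideal.Quotient.eq, hI, sub_mul, single_mul_eps, Algebra.algebraMap_eq_smul_one,
        smul_mul_assoc, one_mul, sub_self])
  obtain ⟨a, rfl⟩ := Ideal.Quotient.mk_surjective a
  obtain ⟨b, rfl⟩ := Ideal.Quotient.mk_surjective b
  set D : MonoidAlgebra k Γ := 1 - MonoidAlgebra.single (T ^ M) 1 with hD
  have h1 : a * D * b * eps ζ = eps ζ := by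
    have h2 : Ideal.Quotient.mk I (a * D * b) = Ideal.Quotient.mk I 1 := by
      rw [map_mul, map_mul, hD, map_sub, map_one]
      exact hab
    rw [Ideal.Quotient.eq, hI, sub_mul, one_mul, sub_eq_zero] at h2
    exact h2
  have he := eps_mul_eps ζ
  have hce := eps_comm ζ hc
  have he1 : eps ζ * (1 - eps ζ) = 0 := by rw [mul_sub, mul_one, he, sub_self]
  have he2 : (1 - eps ζ) * eps ζ = 0 := by rw [sub_mul, one_mul, he, sub_self]
  have he3 : (1 - eps ζ) * (1 - eps ζ) = 1 - eps ζ := by rw [mul_sub, mul_one, he2, sub_zero]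
  have hmul : ∀ x y : MonoidAlgebra k Γ, (x * eps ζ + (1 - eps ζ)) * (y * eps ζ + (1 - eps ζ)) =
      x * y * eps ζ + (1 - eps ζ) := by
    intro x y
    rw [add_mul, mul_add, mul_add, he3, mul_assoc x _ (1 - eps ζ), he1, mul_zero, add_zero,
      ← hce y, ← mul_assoc (1 - eps ζ), he2, zero_mul, zero_add, mul_assoc x, ← mul_assoc (eps ζ),
      he, hce y, mul_assoc]
  refine ⟨a * D * eps ζ + (1 - eps ζ), b * eps ζ + (1 - eps ζ), ?_, ?_⟩
  · rw [hmul, h1, add_sub_cancel]
  · rw [hmul]
    intro h2
    have h3 : b * a * eps ζ * D = eps ζ := by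
      rw [mul_assoc (b * a), hce D, ← mul_assoc, mul_assoc b a D]
      have h4 : b * (a * D) * eps ζ + (1 - eps ζ) = eps ζ + (1 - eps ζ) := by
        rw [h2, add_sub_cancel]
      exact add_right_cancel h4
    let r : Γ → k := fun g =>
      if h : ∃ c : kˣ, ∃ n : ℤ, ζ c * T ^ n = g then (h.choose : k) else 0
    have hr : ∀ (c : kˣ) (n : ℤ), r (ζ c * T ^ n) = c := by
      intro c n
      have h4 : ∃ c' : kˣ, ∃ n' : ℤ, ζ c' * T ^ n' = ζ c * T ^ n := ⟨c, n, rfl⟩
      simp only [r, dif_pos h4]
      obtain ⟨n', h5⟩ := h4.choose_spec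
      rw [hinj _ _ _ _ h5]
    have hrT : ∀ g, r (g * T ^ M) = r g := by
      intro g
      by_cases hg : ∃ c : kˣ, ∃ n : ℤ, ζ c * T ^ n = g
      · obtain ⟨c, n, rfl⟩ := hg
        rw [mul_assoc, ← zpow_add, hr, hr]
      · have hg' : ¬ ∃ c : kˣ, ∃ n : ℤ, ζ c * T ^ n = g * T ^ M := by
          rintro ⟨c, n, h4⟩
          apply hg
          refine ⟨c, n - M, ?_⟩
          rw [zpow_sub, ← mul_assoc, h4, mul_inv_cancel_right]
        simp only [r, dif_neg hg, dif_neg hg']
    let ρ : MonoidAlgebra k Γ →ₗ[k] k :=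
      (Finsupp.linearCombination k r) ∘ₗ (MonoidAlgebra.coeffLinearEquiv k).toLinearMap
    have hρ : ∀ g x, ρ (MonoidAlgebra.single g x) = x * r g := by
      intro g x
      simp [ρ]
    have hρD : ∀ f, ρ (f * D) = 0 := by
      intro f
      induction f using MonoidAlgebra.induction_linear with
      | zero => simp
      | add f g hf hg => rw [add_mul, map_add, hf, hg, add_zero]
      | single g x =>
        rw [hD, mul_sub, mul_one, MonoidAlgebra.single_mul_single, map_sub, hρ, hρ, hrT, mul_one,
          sub_self]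
    have hρe : ρ (eps ζ) = 1 := by
      unfold eps
      rw [map_neg, map_sum]
      have h4 : ∀ c : kˣ, ρ (MonoidAlgebra.single (ζ c) ((c⁻¹ : kˣ) : k)) = 1 := by
        intro c
        have h5 := hr c 0
        rw [zpow_zero, mul_one] at h5
        rw [hρ, h5, Units.inv_mul]
      simp only [h4]
      rw [sum_const, card_univ, nsmul_eq_mul, card_units_cast]
      simp
    have h6 := hρD (b * a * eps ζ)
    rw [h3, hρe] at h6
    exact one_ne_zero h6

end Idem

/-- a counterexample lifts to a finitely presented group -/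
theorem NDF.exists_fp {R : Type u} [Ring R] {Γ : Type} [Group Γ] (h : NDF R Γ) :
    ∃ (G : Type) (_ : Group G), Group.IsFinitelyPresented G ∧ NDF R G := by
  classical
  obtain ⟨a, b, hab, hba⟩ := h
  let X : Finset Γ := a.coeff.support ∪ b.coeff.support
  let rels : Set (FreeGroup X) :=
    (Set.range fun y : (X × X) × (X × X) =>
      if (y.1.1 : Γ) * y.1.2 = y.2.1 * y.2.2 then
        FreeGroup.of y.1.1 * FreeGroup.of y.1.2 * (FreeGroup.of y.2.1 * FreeGroup.of y.2.2)⁻¹
      else 1) ∪
    (Set.range fun y : X × X =>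
      if (y.1 : Γ) * y.2 = 1 then FreeGroup.of y.1 * FreeGroup.of y.2 else 1)
  have hfin : Finite rels := ((Set.finite_range _).union (Set.finite_range _)).to_subtype
  have hrel : ∀ r ∈ rels, FreeGroup.lift (fun x : X => (x : Γ)) r = 1 := by
    rintro r (⟨y, rfl⟩ | ⟨y, rfl⟩)
    · beta_reduce
      split_ifs with hy
      · simp only [map_mul, map_inv, FreeGroup.lift_apply_of]
        rw [hy, mul_inv_cancel]
      · exact map_one _
    · beta_reduce
      split_ifs with hy
      · simp only [map_mul, FreeGroup.lift_apply_of]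
        exact hy
      · exact map_one _
  let f : PresentedGroup rels →* Γ := PresentedGroup.toGroup hrel
  let o : X → PresentedGroup rels := PresentedGroup.of
  have hf : ∀ x, f (o x) = x := fun x => PresentedGroup.toGroup.of hrel
  have h1 : ∀ x y x' y' : X, (x : Γ) * y = x' * y' → o x * o y = o x' * o y' := by
    intro x y x' y' hxy
    have h2 := PresentedGroup.one_of_mem (rels := rels) (Or.inl ⟨((x, y), (x', y')), rfl⟩)
    beta_reduce at h2
    rw [if_pos hxy, map_mul, map_inv, mul_inv_eq_one, map_mul, map_mul] at h2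
    exact h2
  have h2 : ∀ x y : X, (x : Γ) * y = 1 → o x * o y = 1 := by
    intro x y hxy
    have h2 := PresentedGroup.one_of_mem (rels := rels) (Or.inr ⟨(x, y), rfl⟩)
    beta_reduce at h2
    rw [if_pos hxy, map_mul] at h2
    exact h2
  let s : Γ → PresentedGroup rels := fun γ =>
    if γ = 1 then 1 else if h : ∃ y : X × X, (y.1 : Γ) * y.2 = γ then o h.choose.1 * o h.choose.2
      else 1
  have hs : ∀ x y : X, s (x * y) = o x * o y := by
    intro x y
    by_cases hxy : (x : Γ) * y = 1
    · simp only [s, if_pos hxy]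
      exact (h2 x y hxy).symm
    · have h3 : ∃ z : X × X, (z.1 : Γ) * z.2 = x * y := ⟨(x, y), rfl⟩
      simp only [s, if_neg hxy, dif_pos h3]
      exact h1 _ _ _ _ h3.choose_spec
  have hX : ∀ c : MonoidAlgebra R Γ, c.coeff.support ⊆ X →
      ∑ x : X, MonoidAlgebra.single (x : Γ) (c.coeff x) = c := by
    intro c hc
    rw [Finset.sum_coe_sort X (fun x => MonoidAlgebra.single x (c.coeff x))]
    conv_rhs => rw [← MonoidAlgebra.sum_coeff_single c]
    rw [Finsupp.sum_of_support_subset _ hc _ (fun i _ => MonoidAlgebra.single_zero i)]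
  have ha := hX a subset_union_left
  have hb := hX b subset_union_right
  refine ⟨PresentedGroup rels, inferInstance, inferInstance,
    ∑ x : X, MonoidAlgebra.single (o x) (a.coeff x),
    ∑ x : X, MonoidAlgebra.single (o x) (b.coeff x), ?_, ?_⟩
  · have h3 := congrArg (MonoidAlgebra.mapDomainLinearMap ℤ R s) hab
    rw [← ha, ← hb, sum_mul_sum, MonoidAlgebra.one_def, MonoidAlgebra.mapDomainLinearMap_single]
      at h3
    simp only [map_sum, MonoidAlgebra.single_mul_single, MonoidAlgebra.mapDomainLinearMap_single,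
      hs] at h3
    rw [sum_mul_sum]
    simp only [MonoidAlgebra.single_mul_single]
    rw [h3]
    simp only [s, if_true]
    rfl
  · intro h3
    apply hba
    have h4 := congrArg (MonoidAlgebra.mapDomainRingHom R f) h3
    rw [map_mul, map_one, map_sum, map_sum] at h4
    simp only [MonoidAlgebra.mapDomainRingHom_apply, MonoidAlgebra.mapDomain_single, hf] at h4
    rw [ha, hb] at h4
    exact h4

/-- change of the group and of the ring -/
theorem NDF.change {R : Type*} [Ring R] {G : Type*} [Group G] (h : NDF R G) {K : Type*} [Ring K]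
    (φ : R →+* K) (hφ : Function.Injective φ) {H : Type*} [Group H] (i : G →* H)
    (hi : Function.Injective i) : NDF K H := by
  obtain ⟨a, b, hab, hba⟩ := h
  let f1 := MonoidAlgebra.mapDomainRingHom R i
  have hf1 : Function.Injective f1 := MonoidAlgebra.mapDomain_injective hi
  let f2 := MonoidAlgebra.mapRingHom H φ
  have hf2 : Function.Injective f2 := by
    intro x y hxy
    apply MonoidAlgebra.coeff_injective
    ext g
    have h := congrArg (fun z => MonoidAlgebra.coeff z g) hxy
    simp only [f2, MonoidAlgebra.coeff_mapRingHom] at h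
    exact hφ h
  refine ⟨f2 (f1 a), f2 (f1 b), by rw [← map_mul, ← map_mul, hab, map_one, map_one],
    fun h => hba (hf1 (hf2 ?_))⟩
  rw [map_mul, map_mul, h, map_one, map_one]

end Vale.Agent.N194P
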