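import Vale.Agent.P201.Bd3.B3
import Vale.Agent.P201.Bd3.B4
import Mathlib.GroupTheory.FreeGroup.NielsenSchreier

/-!
Extensions of the group of an aspherical system of ports with prescribed values of the relators.
-/

namespace Vale.Agent.N194P

open Vale.Agent.P201.S Vale.Agent.P201.S.TF

variable {S : Sys} (σ : Equiv.Perm S.C)

/-- the relator of a cell -/
noncomputable def rel (c : S.C) : FreeGroup (Let S) := val (relw σ (c, true))

/-- asphericity -/
def Asph : Prop := ∀ k z, Expr σ k 1 z → z = 0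

theorem prj_relc (c : S.C) : prj σ (rel σ c) = 1 := prj_rel σ _

theorem rel_false (c : S.C) : val (relw σ (c, false)) = (rel σ (σ.symm c))⁻¹ := by
  have h2 := val_relw_mt σ (σ.symm c, true)
  have h3 : Vale.Agent.P201.S.mt σ (σ.symm c, true) = (c, false) := by
    simp [Vale.Agent.P201.S.mt]
  rw [h3] at h2
  exact h2

theorem expr_unique (has : Asph σ) {k k' : ℕ} {u : FreeGroup (Let S)} {z z' : Chn σ}
    (h : Expr σ k u z) (h' : Expr σ k' u z') : z = z' := by
  have h4 := Expr.mul' σ h (Expr.inv' σ h')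
  rw [mul_inv_cancel] at h4
  have h5 := has _ _ h4
  rwa [← sub_eq_add_neg, sub_eq_zero] at h5

open Classical in
/-- the chain of an element of the relation subgroup -/
noncomputable def chn (u : FreeGroup (Let S)) : Chn σ :=
  if h : ∃ z k, Expr σ k u z then h.choose else 0

theorem chn_eq (has : Asph σ) {k : ℕ} {u : FreeGroup (Let S)} {z : Chn σ} (h : Expr σ k u z) :
    chn σ u = z := by
  have h1 : ∃ z k, Expr σ k u z := ⟨z, k, h⟩
  rw [chn, dif_pos h1]
  obtain ⟨k', h2⟩ := h1.choose_spec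
  exact expr_unique σ has h2 h

theorem chn_one (has : Asph σ) : chn σ 1 = 0 := chn_eq σ has Expr.nil

theorem chn_mul (has : Asph σ) {u v : FreeGroup (Let S)} (hu : prj σ u = 1) (hv : prj σ v = 1) :
    chn σ (u * v) = chn σ u + chn σ v := by
  obtain ⟨k, z, h⟩ := exists_expr σ hu
  obtain ⟨k', z', h'⟩ := exists_expr σ hv
  rw [chn_eq σ has h, chn_eq σ has h', chn_eq σ has (Expr.mul' σ h h')]

theorem chn_inv (has : Asph σ) {u : FreeGroup (Let S)} (hu : prj σ u = 1) :
    chn σ u⁻¹ = - chn σ u := by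
  obtain ⟨k, z, h⟩ := exists_expr σ hu
  rw [chn_eq σ has h, chn_eq σ has (Expr.inv' σ h)]

theorem chn_conj (has : Asph σ) {u : FreeGroup (Let S)} (hu : prj σ u = 1)
    (w : FreeGroup (Let S)) : chn σ (w * u * w⁻¹) = sm (prj σ w) (chn σ u) := by
  obtain ⟨k, z, h⟩ := exists_expr σ hu
  rw [chn_eq σ has h, chn_eq σ has (Expr.conj' σ h w)]

theorem chn_rel (has : Asph σ) (w : FreeGroup (Let S)) (c : S.C) :
    chn σ (w * rel σ c * w⁻¹) = Finsupp.single (prj σ w, c) 1 := by
  have h3 := Expr.cons 0 1 0 w (c, true) (Expr.nil (σ := σ))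
  rw [mul_one, add_zero] at h3
  rw [rel, chn_eq σ has h3]
  simp [pch]

section Ext

open SemidirectProduct

variable {N : Type} [Group N] (φ : FreeGroup (Let S) →* MulAut N) (w : S.C → N)

/-- the lifted relators -/
noncomputable def sr (c : S.C) : N ⋊[φ] FreeGroup (Let S) := (inl (w c))⁻¹ * inr (rel σ c)

/-- their normal closure -/
noncomputable def Sn : Subgroup (N ⋊[φ] FreeGroup (Let S)) :=
  Subgroup.normalClosure (Set.range (sr σ φ w))

instance Sn_normal : (Sn σ φ w).Normal := Subgroup.normalClosure_normal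

theorem sr_mem (c : S.C) : sr σ φ w c ∈ Sn σ φ w := Subgroup.subset_normalClosure ⟨c, rfl⟩

theorem right_sr (c : S.C) : rightHom (sr σ φ w c) = rel σ c := by
  rw [sr, map_mul, map_inv, rightHom_inl, rightHom_inr, inv_one, one_mul]

variable {σ φ w}

theorem Sn_comm (hw : ∀ c n, φ (rel σ c) n = w c * n * (w c)⁻¹) {x : N ⋊[φ] FreeGroup (Let S)}
    (hx : x ∈ Sn σ φ w) (n : N) : inl n * x = x * inl n := by
  have hn : ((inl : N →* N ⋊[φ] FreeGroup (Let S)).range).Normal := by
    rw [range_inl_eq_ker_rightHom]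
    infer_instance
  have h1 : Sn σ φ w ≤ Subgroup.centralizer
      (((inl : N →* N ⋊[φ] FreeGroup (Let S)).range : Subgroup _) : Set _) := by
    apply Subgroup.normalClosure_le_normal
    rintro _ ⟨c, rfl⟩
    rw [SetLike.mem_coe, Subgroup.mem_centralizer_iff]
    rintro _ ⟨m, rfl⟩
    have h2 := inl_aut (φ := φ) (rel σ c) m
    rw [hw, map_mul, map_mul, map_inv, map_inv] at h2
    have h3 : (inr (rel σ c) : N ⋊[φ] FreeGroup (Let S)) * inl m =
        inl (w c) * inl m * (inl (w c))⁻¹ * inr (rel σ c) := by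
      rw [h2]
      group
    rw [sr, mul_assoc _ (inr (rel σ c)), h3]
    group
  exact (Subgroup.mem_centralizer_iff.1 (h1 hx)) _ ⟨n, rfl⟩

theorem Sn_ker {x : N ⋊[φ] FreeGroup (Let S)} (hx : x ∈ Sn σ φ w) : prj σ (rightHom x) = 1 := by
  have h1 : Sn σ φ w ≤ ((prj σ).comp (rightHom : N ⋊[φ] FreeGroup (Let S) →* _)).ker := by
    apply Subgroup.normalClosure_le_normal
    rintro _ ⟨c, rfl⟩
    rw [SetLike.mem_coe, MonoidHom.mem_ker, MonoidHom.comp_apply, right_sr, prj_relc]
  exact h1 hx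

variable (φ w) in
theorem Sn_onto {u : FreeGroup (Let S)} (hu : prj σ u = 1) :
    ∃ x ∈ Sn σ φ w, rightHom x = u := by
  obtain ⟨k, z, h⟩ := exists_expr σ hu
  clear hu
  induction h with
  | nil => exact ⟨1, one_mem _, map_one _⟩
  | cons k u z v q _ ih =>
    obtain ⟨x, hx, hxu⟩ := ih
    obtain ⟨c, b⟩ := q
    cases b
    · refine ⟨inr v * (sr σ φ w (σ.symm c))⁻¹ * (inr v)⁻¹ * x, mul_mem
        ((Sn_normal σ φ w).conj_mem _ (inv_mem (sr_mem σ φ w _)) _) hx, ?_⟩
      rw [map_mul, map_mul, map_mul, map_inv, map_inv, right_sr, rightHom_inr, hxu, rel_false]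
    · refine ⟨inr v * sr σ φ w c * (inr v)⁻¹ * x, mul_mem
        ((Sn_normal σ φ w).conj_mem _ (sr_mem σ φ w _) _) hx, ?_⟩
      rw [map_mul, map_mul, map_mul, map_inv, right_sr, rightHom_inr, hxu, rel]

theorem exists_inl {x : N ⋊[φ] FreeGroup (Let S)} (hx : rightHom x = 1) : ∃ n, inl n = x := by
  have h : x ∈ (inl : N →* N ⋊[φ] FreeGroup (Let S)).range := by
    rw [range_inl_eq_ker_rightHom]
    exact hx
  exact h

variable (φ w) in
/-- a homomorphic section over the relation subgroup, which is free -/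
theorem exists_section : ∃ sec : (prj σ).ker →* Sn σ φ w,
    ∀ r, rightHom (sec r : N ⋊[φ] FreeGroup (Let S)) = r := by
  have h1 : ∀ r : (prj σ).ker, ∃ x : Sn σ φ w, rightHom (x : N ⋊[φ] FreeGroup (Let S)) = r := by
    intro r
    obtain ⟨x, hx, h⟩ := Sn_onto φ w r.2
    exact ⟨⟨x, hx⟩, h⟩
  choose f hf using h1
  refine ⟨IsFreeGroup.lift (fun a => f (IsFreeGroup.of a)), fun r => ?_⟩
  have h2 : ((rightHom : N ⋊[φ] FreeGroup (Let S) →* _).comp (Sn σ φ w).subtype).comp
      (IsFreeGroup.lift (fun a => f (IsFreeGroup.of a))) = (prj σ).ker.subtype := by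
    apply IsFreeGroup.ext_hom
    intro a
    simp only [MonoidHom.comp_apply, IsFreeGroup.lift_of, Subgroup.subtype_apply]
    exact hf _
  exact DFunLike.congr_fun h2 r

open scoped IsMulCommutative in
theorem inl_mem_Sn (has : Asph σ) (hw : ∀ c n, φ (rel σ c) n = w c * n * (w c)⁻¹) {n : N}
    (hn : (inl n : N ⋊[φ] FreeGroup (Let S)) ∈ Sn σ φ w) : n = 1 := by
  classical
  obtain ⟨sec, hsec⟩ := exists_section (σ := σ) φ w
  let ρ : Sn σ φ w →* (prj σ).ker :=
    ((rightHom : N ⋊[φ] FreeGroup (Let S) →* _).comp (Sn σ φ w).subtype).codRestrict _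
      (fun x => Sn_ker x.2)
  have hρ : ∀ x : Sn σ φ w, (ρ x : FreeGroup (Let S)) = rightHom (x : N ⋊[φ] FreeGroup (Let S)) :=
    fun _ => rfl
  have hcen : ∀ x : Sn σ φ w, x * (sec (ρ x))⁻¹ ∈ Subgroup.center (Sn σ φ w) := by
    intro x
    rw [Subgroup.mem_center_iff]
    intro y
    have h1 : rightHom ((x * (sec (ρ x))⁻¹ : Sn σ φ w) : N ⋊[φ] FreeGroup (Let S)) = 1 := by
      rw [Subgroup.coe_mul, Subgroup.coe_inv, map_mul, map_inv, hsec, hρ, mul_inv_cancel]
    obtain ⟨m, hm⟩ := exists_inl h1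
    apply Subtype.ext
    rw [Subgroup.coe_mul _ y, Subgroup.coe_mul _ _ y, ← hm]
    exact (Sn_comm hw y.2 m).symm
  let lam : Sn σ φ w →* Subgroup.center (Sn σ φ w) := MonoidHom.mk'
    (fun x => ⟨x * (sec (ρ x))⁻¹, hcen x⟩) (by
      intro x y
      apply Subtype.ext
      have h1 := Subgroup.mem_center_iff.1 (hcen y) (sec (ρ x))⁻¹
      simp only [Subgroup.coe_mul, map_mul, mul_inv_rev]
      rw [mul_assoc x (sec (ρ x))⁻¹, h1]
      simp only [mul_assoc])
  have hsurj : Function.Surjective (prj σ) := QuotientGroup.mk_surjective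
  let ot : Gp σ → FreeGroup (Let S) := Function.surjInv hsurj
  have hot : ∀ g, prj σ (ot g) = g := Function.surjInv_eq hsurj
  let gen : (N ⋊[φ] FreeGroup (Let S)) → S.C → Sn σ φ w := fun p c =>
    ⟨p * sr σ φ w c * p⁻¹, (Sn_normal σ φ w).conj_mem _ (sr_mem σ φ w c) p⟩
  let Lam : Chn σ →+ Additive (Subgroup.center (Sn σ φ w)) :=
    Finsupp.liftAddHom (fun gc => zmultiplesHom _ (Additive.ofMul (lam (gen (inr (ot gc.1)) gc.2))))
  have hLam : ∀ g c, Lam (Finsupp.single (g, c) 1) = Additive.ofMul (lam (gen (inr (ot g)) c)) := by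
    intro g c
    simp only [Lam, Finsupp.liftAddHom_apply_single, zmultiplesHom_apply, one_smul]
  have hgen : ∀ p c, lam (gen p c) = lam (gen (inr (ot (prj σ (rightHom p)))) c) := by
    intro p c
    set p' : N ⋊[φ] FreeGroup (Let S) := inr (ot (prj σ (rightHom p))) with hp'
    have h1 : prj σ (rightHom (p * p'⁻¹)) = 1 := by
      rw [map_mul, map_inv, hp', rightHom_inr, map_mul, map_inv, hot, mul_inv_cancel]
    obtain ⟨y, hy, hy2⟩ := Sn_onto φ w h1
    have h2 : rightHom (y⁻¹ * (p * p'⁻¹)) = 1 := by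
      rw [map_mul, map_inv, hy2, inv_mul_cancel]
    obtain ⟨m, hm⟩ := exists_inl h2
    have h3 : p = y * inl m * p' := by
      rw [hm]
      group
    have h4 : gen p c = ⟨y, hy⟩ * gen p' c * ⟨y, hy⟩⁻¹ := by
      apply Subtype.ext
      have h5 := Sn_comm hw (gen p' c).2 m
      change p * sr σ φ w c * p⁻¹ = y * (p' * sr σ φ w c * p'⁻¹) * y⁻¹
      change inl m * (p' * sr σ φ w c * p'⁻¹) = p' * sr σ φ w c * p'⁻¹ * inl m at h5
      calc p * sr σ φ w c * p⁻¹
          = y * (inl m * (p' * sr σ φ w c * p'⁻¹)) * (inl m)⁻¹ * y⁻¹ := by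
            rw [h3]
            group
        _ = y * (p' * sr σ φ w c * p'⁻¹) * y⁻¹ := by
            rw [h5]
            group
    rw [h4, map_mul, map_mul, map_inv, mul_inv_cancel_comm]
  have key : ∀ (x : N ⋊[φ] FreeGroup (Let S)) (hx : x ∈ Sn σ φ w),
      Additive.ofMul (lam ⟨x, hx⟩) = Lam (chn σ (rightHom x)) := by
    intro x hx
    induction hx using Subgroup.closure_induction with
    | mem x hx =>
      obtain ⟨_, ⟨c, rfl⟩, hc⟩ := Group.mem_conjugatesOfSet_iff.1 hx
      obtain ⟨p, rfl⟩ := isConj_iff.1 hc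
      rw [map_mul, map_mul, map_inv, right_sr, chn_rel σ has, hLam, ← hgen]
    | one =>
      rw [map_one, chn_one σ has, map_zero]
      exact congrArg Additive.ofMul (map_one lam)
    | mul x y hx hy ihx ihy =>
      rw [map_mul, chn_mul σ has (Sn_ker hx) (Sn_ker hy), map_add, ← ihx, ← ihy, ← ofMul_mul,
        ← map_mul]
      rfl
    | inv x hx ihx =>
      rw [map_inv, chn_inv σ has (Sn_ker hx), map_neg, ← ihx, ← ofMul_inv, ← map_inv]
      rfl
  have h1 := key _ hn
  rw [rightHom_inl, chn_one σ has, map_zero] at h1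
  have h2 : lam ⟨inl n, hn⟩ = 1 := h1
  have h3 : (⟨inl n, hn⟩ : Sn σ φ w) * (sec (ρ ⟨inl n, hn⟩))⁻¹ = 1 := congrArg Subtype.val h2
  have h4 : ρ ⟨inl n, hn⟩ = 1 := Subtype.ext (rightHom_inl (φ := φ) n)
  rw [h4, map_one, inv_one, mul_one] at h3
  have h5 : (inl n : N ⋊[φ] FreeGroup (Let S)) = 1 := congrArg Subtype.val h3
  exact inl_injective (h5.trans (map_one _).symm)

/-- An extension of the group of the system by `N` in which the relators have prescribed values. -/
theorem ext_exists (has : Asph σ) (hw : ∀ c n, φ (rel σ c) n = w c * n * (w c)⁻¹) :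
    ∃ (Γ : Type) (_ : Group Γ) (ι : N →* Γ) (ψ : FreeGroup (Let S) →* Γ) (π : Γ →* Gp σ),
      Function.Injective ι ∧ (∀ v n, ψ v * ι n = ι (φ v n) * ψ v) ∧
      (∀ c, ψ (rel σ c) = ι (w c)) ∧ (∀ n, π (ι n) = 1) ∧ (∀ v, π (ψ v) = prj σ v) ∧
      ∀ γ, ∃ n v, γ = ι n * ψ v := by
  refine ⟨(N ⋊[φ] FreeGroup (Let S)) ⧸ Sn σ φ w, inferInstance,
    (QuotientGroup.mk' _).comp inl, (QuotientGroup.mk' _).comp inr,
    QuotientGroup.lift _ ((prj σ).comp rightHom) (fun x hx => Sn_ker hx), ?_, ?_, ?_, ?_, ?_, ?_⟩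
  · rw [injective_iff_map_eq_one]
    intro n hn
    exact inl_mem_Sn has hw ((QuotientGroup.eq_one_iff _).1 hn)
  · intro v n
    simp only [MonoidHom.comp_apply]
    rw [← map_mul, ← map_mul, inl_aut, map_inv, inv_mul_cancel_right]
  · intro c
    have h1 : QuotientGroup.mk' (Sn σ φ w) (sr σ φ w c) = 1 :=
      (QuotientGroup.eq_one_iff _).2 (sr_mem σ φ w c)
    rw [sr, map_mul, map_inv, inv_mul_eq_one] at h1
    exact h1.symm
  · intro n
    change prj σ (rightHom (inl n : N ⋊[φ] FreeGroup (Let S))) = 1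
    rw [rightHom_inl, map_one]
  · intro v
    change prj σ (rightHom (inr v : N ⋊[φ] FreeGroup (Let S))) = _
    rw [rightHom_inr]
  · intro γ
    obtain ⟨p, rfl⟩ := QuotientGroup.mk'_surjective _ γ
    refine ⟨p.left, p.right, ?_⟩
    simp only [MonoidHom.comp_apply]
    rw [← map_mul, inl_left_mul_inr_right]

end Ext

end Vale.Agent.N194P
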