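import Vale.Agent.N194P.Sys
import Vale.Agent.N194P.Alg
import Mathlib.GroupTheory.NoncommCoprod

/-!
Assembly for odd primes.
-/

namespace Vale.Agent.N194P

open Finset Vale.Agent.P201.S
open Vale.Agent.P194.M (dil dil_inj)

variable {k : Type} [Field k]

open Classical in
/-- a nonzero scalar as a unit -/
noncomputable def un (c : k) : kˣ := if h : c = 0 then 1 else Units.mk0 c h

theorem un_val {c : k} (h : c ≠ 0) : (un c : k) = c := by
  rw [un, dif_neg h, Units.val_mk0]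

/-- a polynomial in `u` times a combination of monomials is a sum over the heights -/
theorem exists_lab (p : Pat k) {M L : ℤ} (hB : Big p M L) (s : Finset ℕ) (c : ℕ → k)
    (hc : ∀ a ∈ s, c a ≠ 0) (cf : p.Mo → k) : ∃ lab : ℤ → Tw p.B,
      ∀ (A : Type) [Ring A] [Algebra k A] (η : Tw p.B × Multiplicative ℤ →* A),
        (∀ x, η (zc p.B x) = algebraMap k A x) →
        (∑ a ∈ s, c a • η (1, Multiplicative.ofAdd M) ^ a) * Ex η p.mon p.Ht cf =
          ∑ h ∈ dil M s (sp p.Ht cf), η (lab h, Multiplicative.ofAdd h) := by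
  classical
  let J : Finset (ℕ × p.Mo) := s ×ˢ univ.filter (fun a => cf a ≠ 0)
  let hg : ℕ × p.Mo → ℤ := fun x => M * x.1 + p.Ht x.2
  let lb : ℕ × p.Mo → Tw p.B := fun x => ⟨Additive.ofMul (un (c x.1 * cf x.2)), 0⟩ * p.mon x.2
  have hM : 2 * L < M := by have := hB.lt; have := hB.L0; linarith
  have hinj : Function.Injective hg := by
    rintro ⟨a, x⟩ ⟨b, y⟩ h
    have h1 := dil_inj hM (hB.hH x) (hB.hH y) h
    exact Prod.ext h1.1 (p.inj h1.2)
  have hJ : dil M s (sp p.Ht cf) = J.image hg := by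
    ext z
    simp only [dil, J, hg, mem_image, mem_product, mem_sp, mem_filter, mem_univ, true_and,
      Prod.exists]
    constructor
    · rintro ⟨a, h, ⟨ha, x, hx, rfl⟩, rfl⟩
      exact ⟨a, x, ⟨ha, hx⟩, rfl⟩
    · rintro ⟨a, x, ⟨ha, hx⟩, rfl⟩
      exact ⟨a, _, ⟨ha, x, hx, rfl⟩, rfl⟩
  refine ⟨Function.extend hg lb (fun _ => 1), fun A _ _ η hη => ?_⟩
  rw [hJ, sum_image (fun a _ b _ h => hinj h), Ex,
    ← sum_filter_of_ne (p := fun a => cf a ≠ 0) (fun x _ hx h0 => hx (by rw [h0, zero_smul])),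
    sum_mul_sum, sum_product]
  refine sum_congr rfl fun a ha => sum_congr rfl fun x hx => ?_
  have h1 : c a * cf x ≠ 0 := mul_ne_zero (hc a ha) (mem_filter.1 hx).2
  have h2 : (lb (a, x), Multiplicative.ofAdd (hg (a, x))) = zc p.B (un (c a * cf x)) *
      ((1, Multiplicative.ofAdd M) ^ a * (p.mon x, Multiplicative.ofAdd (p.Ht x))) := by
    refine Prod.ext ?_ ?_
    · simp [lb, zc]
    · simp only [hg, zc, Prod.snd_mul, Prod.pow_snd, one_mul, ← ofAdd_nsmul, ← ofAdd_add,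
        nsmul_eq_mul, mul_comm M]
  rw [hinj.extend_apply, h2, map_mul, map_mul, hη, un_val h1, map_pow, smul_mul_smul_comm,
    Algebra.smul_def]

/-- coefficients of the powers of `u` -/
def cu {p : Pat k} {n : ℕ} : Rw p → Bk p n → ℕ → k
  | Sum.inl _, Sum.inl _, a => if a = 0 then 1 else -1
  | Sum.inr _, Sum.inl _, a => if a = 0 then 1 else -1
  | Sum.inl _, Sum.inr (Sum.inl _), a => if a = 1 then -2 else 1
  | Sum.inl _, Sum.inr (Sum.inr _), a => if a = 1 ∨ a = 2 then -1 else 1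
  | Sum.inr true, Sum.inr (Sum.inl _), a => if a = 1 ∨ a = 2 then -1 else 1
  | Sum.inr false, Sum.inr (Sum.inl _), a => if a = 1 then -2 else 1
  | Sum.inr true, Sum.inr (Sum.inr _), a => if a = 2 then -2 else 1
  | Sum.inr false, Sum.inr (Sum.inr _), a => if a = 1 ∨ a = 2 then -1 else 1

theorem cu_ne (h2 : (2 : k) ≠ 0) {p : Pat k} {n : ℕ} (r : Rw p) (b : Bk p n) (a : ℕ) :
    cu r b a ≠ 0 := by
  rcases r with x | (_ | _) <;> rcases b with y | (y | y) <;> simp only [cu] <;> split_ifs <;>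
    simp [h2]

/-- coefficients of the factor with small exponents -/
def fc (p : Pat k) (n : ℕ) : Rw p → Bk p n → p.Mo → k
  | Sum.inl x, Sum.inl y => p.cfM x.1 y.1
  | Sum.inr _, Sum.inl y => p.cfQ y.1
  | Sum.inl x, Sum.inr _ => p.cfP x.1
  | Sum.inr _, Sum.inr _ => p.cf1

theorem fu_eq (p : Pat k) (n : ℕ) (r : Rw p) (b : Bk p n) : fu p n r b = sp p.Ht (fc p n r b) := by
  rcases r with x | x <;> rcases b with y | y
  · rfl
  · rfl
  · rfl
  · exact p.sp1.symm

section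

variable {p : Pat k} {A : Type} [Ring A] [Algebra k A] (η : Tw p.B × Multiplicative ℤ →* A)

/-- a row divided by `1 - u` -/
noncomputable def Pq (u : A) : Rw p → A
  | Sum.inl x => Ex η p.mon p.Ht (p.cfP x.1)
  | Sum.inr true => 1 + u
  | Sum.inr false => 1

/-- a block -/
noncomputable def Qb {n : ℕ} (u : A) : Bk p n → A
  | Sum.inl y => Ex η p.mon p.Ht (p.cfQ y.1)
  | Sum.inr (Sum.inl _) => 1 - u
  | Sum.inr (Sum.inr _) => 1 - u ^ 2

theorem u_comm (M : ℤ) (cf : p.Mo → k) :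
    Commute (η (1, Multiplicative.ofAdd M)) (Ex η p.mon p.Ht cf) := by
  refine Commute.sum_right _ _ _ fun a _ => Commute.smul_right ?_ _
  change _ * _ = _ * _
  rw [← map_mul, ← map_mul]
  congr 1
  exact Prod.ext (by simp) (mul_comm _ _)

theorem mul_fac (hη : ∀ x, η (zc p.B x) = algebraMap k A x) {n : ℕ} (M : ℤ) (r : Rw p)
    (b : Bk p n) : Pq η (η (1, Multiplicative.ofAdd M)) r * (1 - η (1, Multiplicative.ofAdd M)) *
      Qb η (η (1, Multiplicative.ofAdd M)) b =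
      (∑ a ∈ Au r b, cu r b a • η (1, Multiplicative.ofAdd M) ^ a) *
        Ex η p.mon p.Ht (fc p n r b) := by
  have hc := u_comm η M
  have hm := p.mul A η hη
  have h1 := p.ex1 A η
  generalize η (1, Multiplicative.ofAdd M) = u at *
  have h2 : ∀ x : A, (2 : k) • x = x + x := fun x => two_smul k x
  have h3 : ∀ (cf : p.Mo → k) (x : A), Commute u x → Commute x (Ex η p.mon p.Ht cf) → ∀ y : A,
      Ex η p.mon p.Ht cf * (1 - u) * x = y * Ex η p.mon p.Ht cf ↔
        (1 - u) * x * Ex η p.mon p.Ht cf = y * Ex η p.mon p.Ht cf := by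
    intro cf x _ hx y
    rw [mul_assoc, ← (((Commute.one_left _).sub_left (hc cf)).mul_left hx).eq]
  rcases r with x | (_ | _) <;> rcases b with y | (y | y) <;> simp only [Pq, Qb, Au, cu, fc, h1]
  · rw [← hm, ← ((Commute.one_left _).sub_left (hc _)).eq, mul_assoc]
    simp [sub_eq_add_neg]
  · rw [h3 _ _ ((Commute.one_right _).sub_right (Commute.refl _))
      ((Commute.one_left _).sub_left (hc _))]
    congr 1
    simp [h2]
    noncomm_ring
  · rw [h3 _ _ ((Commute.one_right _).sub_right ((Commute.refl _).pow_right 2))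
      ((Commute.one_left _).sub_left ((hc _).pow_left 2))]
    congr 1
    simp
    noncomm_ring
  · simp [sub_eq_add_neg]
  · simp [h2]
    noncomm_ring
  · simp
    noncomm_ring
  · congr 1
    simp
    noncomm_ring
  · simp
    noncomm_ring
  · simp [h2]
    noncomm_ring

end

/-- a good pattern over a finite field of odd characteristic gives a counterexample -/
theorem ndf_of_pat [Fintype k] [DecidableEq k] (h2 : (2 : k) ≠ 0) (p : Pat k) (hT : 0 < p.Ttot)
    (Lam : ℕ) (hLam : 4900 * (3087 * Fintype.card p.I ^ 2 + 782 * Fintype.card p.K) ≤ Lam)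
    (hW : 25 * p.W4 ≤ 2 * p.Ttot ^ 2) (hL : Lam ≤ p.Ttot)
    (hQ : ∀ j, Lam * (p.C j).card ^ 2 ≤ p.Ttot)
    (hP : ∀ i, Lam * (p.A i).card ^ 3 ≤ p.Ttot ^ 2) :
    ∃ (Γ : Type) (_ : Group Γ), NDF k Γ := by
  classical
  obtain ⟨M, L, hB⟩ := exists_big p
  obtain ⟨c, e1, hc, he1, h⟩ := stmtLoc (Ok.DD p M)
  obtain ⟨K, Y0, hG⟩ := stmtGlob c e1 (10 * M + L).natAbs hc he1
  obtain ⟨N0, h⟩ := h K Y0
  have hn : 2 ≤ N0 + 2 := by omega
  set n := N0 + 2 with hndef
  have hok : (sys n hB).Ok (Ok.DD p M) :=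
    ok_of hB hn (w_of hB (by omega) hT Lam hLam hW hQ hL hP)
  obtain ⟨Y1, hY, σ, g, hg, hgi, hloc⟩ := h (sys n hB) hok (by have := le_card n hB; omega)
  obtain ⟨has, hshort, -⟩ := hG (sys n hB) (fun q => sys_ht n hB q) Y1 hY σ g hg hgi hloc
  have ht := Vale.Agent.P194.M.t_inj_of_short σ Y1 hshort
  choose lab hlab using fun (r : Rw p) (b : Bk p n) =>
    exists_lab p hB (Au r b) (cu r b) (fun a _ => cu_ne h2 r b a) (fc p n r b)
  obtain ⟨Γ, _, ι, T, X, Y, hιT, hcen, hinj, hrel⟩ := twist σ has ht p.B (fun q =>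
    if q.2 then lab ((sys n hB).rc q) ((sys n hB).blk q) ((sys n hB).ht q) else
      ⟨Additive.ofMul (-1), 0⟩ * lab ((sys n hB).rc q) ((sys n hB).blk q) ((sys n hB).ht q))
  let ζ : kˣ →* Γ := ι.comp (MonoidHom.mk' (fun c => ⟨Additive.ofMul c, 0⟩) (by
    intro a b
    ext1 <;> simp))
  have hζ : ∀ c, ζ c = ι ⟨Additive.ofMul c, 0⟩ := fun _ => rfl
  refine ⟨Γ, inferInstance, ndf_of_quot ζ (fun c g => hcen _ g) T
    (fun c c' n n' h => Additive.ofMul.injective (hinj _ _ n n' h)) fun A _ _ μ hμ => ?_⟩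
  let θ : Tw p.B × Multiplicative ℤ →* Γ :=
    MonoidHom.noncommCoprod ι (zpowersHom Γ T) (fun a z => (hιT a).zpow_right _)
  have hθ : ∀ a (z : ℤ), θ (a, Multiplicative.ofAdd z) = ι a * T ^ z := fun _ _ => rfl
  let η := μ.comp θ
  have hη : ∀ x, η (zc p.B x) = algebraMap k A x := by
    intro x
    rw [← hμ, hζ]
    change μ (θ (_, Multiplicative.ofAdd 0)) = _
    rw [hθ, zpow_zero, mul_one]
  have hu : η (1, Multiplicative.ofAdd M) = μ (T ^ M) := by
    change μ (θ _) = _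
    rw [hθ, map_one, one_mul]
  let f : Rw p → Bk p n → ℤ → A := fun r b z => μ (X r * (ι (lab r b z) * T ^ z) * Y b)
  have hsum := QS.sum_ports (q0 p n M) (bal n hB) f σ (by
    intro c
    have h1 := congrArg μ (hrel c)
    simp only [if_true, Bool.false_eq_true, if_false] at h1
    have h3 : ∀ (x y z w : Γ), μ (x * (ι ⟨Additive.ofMul (-1), 0⟩ * y * z) * w) =
        - μ (x * (y * z) * w) := by
      intro x y z w
      rw [← hζ]
      simp only [map_mul, hμ]
      simp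
    rw [map_mul ι, h3] at h1
    exact add_eq_zero_iff_eq_neg.2 h1)
  have hprod : (∑ r : Rw p, μ (X r) * Pq η (μ (T ^ M)) r) * (1 - μ (T ^ M)) *
      (∑ b : Bk p n, Qb η (μ (T ^ M)) b * μ (Y b)) =
      ∑ r : Rw p, ∑ b : Bk p n, ∑ z ∈ Sf p n M r b, f r b z := by
    rw [sum_mul, sum_mul_sum]
    refine sum_congr rfl fun r _ => sum_congr rfl fun b _ => ?_
    have h1 := (mul_fac η hη M r b).trans (hlab r b A η hη)
    rw [hu, ← fu_eq] at h1
    rw [mul_assoc (μ (X r)), mul_assoc (μ (X r)), ← mul_assoc _ _ (μ (Y b)), h1, sum_mul, mul_sum]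
    refine sum_congr rfl fun z _ => ?_
    simp only [f, map_mul μ, mul_assoc]
    change _ * (μ (θ _) * _) = _
    rw [hθ, map_mul, mul_assoc]
  obtain ⟨g0, hg0⟩ : ∃ g0 : Γ, ∑ r : Rw p, ∑ b : Bk p n, ∑ z ∈ Sf p n M r b, f r b z = μ g0 :=
    ⟨_, hsum⟩
  refine ⟨μ g0⁻¹ * ∑ r : Rw p, μ (X r) * Pq η (μ (T ^ M)) r,
    ∑ b : Bk p n, Qb η (μ (T ^ M)) b * μ (Y b), M, ?_⟩
  rw [mul_assoc (μ g0⁻¹), mul_assoc (μ g0⁻¹), hprod, hg0, ← map_mul, inv_mul_cancel, map_one]

/-- the prime field of odd characteristic -/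
theorem ndf_odd (p : ℕ) [Fact p.Prime] (hp : p ≠ 2) :
    ∃ (Γ : Type) (_ : Group Γ), NDF (ZMod p) Γ := by
  obtain ⟨P, hK, hT, hW, hL, hQ, hP⟩ := exists_pat p (fun m => 4900 * (3087 * m ^ 2 + 782 * m))
  have h2 : (2 : ZMod p) ≠ 0 := by
    intro h
    have h3 : ((2 : ℕ) : ZMod p) = 0 := by exact_mod_cast h
    rw [ZMod.natCast_eq_zero_iff] at h3
    exact hp ((Nat.prime_dvd_prime_iff_eq Fact.out Nat.prime_two).1 h3)
  exact ndf_of_pat h2 P hT _ (by rw [hK]) hW hL hQ hP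

/-- every prime field -/
theorem ndf_prime (p : ℕ) [Fact p.Prime] :
    ∃ (G : Type) (_ : Group G), Group.IsFinitelyPresented G ∧ NDF (ZMod p) G := by
  by_cases hp : p = 2
  · subst hp
    obtain ⟨S, σ, -, -, -, -, -, h⟩ := Vale.Agent.P194.M.data stmtLoc stmtGlob stmtTor
    exact NDF.exists_fp (Γ := Gp σ) h
  · obtain ⟨Γ, _, h⟩ := ndf_odd p hp
    exact h.exists_fp

end Vale.Agent.N194P
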