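import Vale.Agent.P201.Bd3.B2
import Mathlib.FieldTheory.Finite.GaloisField
import Mathlib.Analysis.SpecificLimits.Normed

/-!
Low rank factorisation over the prime field of the incidence matrix of the affine plane of order
`p ^ e`, and the choice of the parameters.
-/

namespace Vale.Agent.N194P

open Finset Vale.Agent.P201.Z

/-- index set of the expansion of a trinomial to the power `p - 1` -/
abbrev Tri (p : ℕ) : Type := Σ i : Fin p, Fin (i + 1)

theorem card_Tri (p : ℕ) : 2 * Fintype.card (Tri p) = p * (p + 1) := by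
  rw [Fintype.card_sigma]
  simp only [Fintype.card_fin]
  rw [Fin.sum_univ_eq_sum_range (fun i => i + 1) p]
  induction p with
  | zero => simp
  | succ p ih =>
    rw [sum_range_succ, mul_add, ih]
    ring

theorem tri_pow {F : Type} [CommRing F] {p : ℕ} (hp : 1 ≤ p) (A B C : F) :
    (A + B + C) ^ (p - 1) = ∑ r : Tri p, (((p - 1).choose r.1 * (r.1 : ℕ).choose r.2 : ℕ) : F) *
      (A ^ (r.2 : ℕ) * B ^ ((r.1 : ℕ) - r.2) * C ^ (p - 1 - r.1)) := by
  rw [add_pow, Fintype.sum_sigma, Nat.sub_add_cancel hp, ← Fin.sum_univ_eq_sum_range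
    (fun i => (A + B) ^ i * C ^ (p - 1 - i) * ((p - 1).choose i : F)) p]
  refine sum_congr rfl fun i _ => ?_
  rw [add_pow, ← Fin.sum_univ_eq_sum_range
    (fun j => A ^ j * B ^ ((i : ℕ) - j) * ((i : ℕ).choose j : F)) (i + 1), sum_mul, sum_mul]
  refine sum_congr rfl fun j _ => ?_
  push_cast
  ring

theorem geom_p {p : ℕ} (hp : 1 ≤ p) (e : ℕ) : ∑ s ∈ range e, p ^ s * (p - 1) = p ^ e - 1 := by
  obtain ⟨r, rfl⟩ := Nat.exists_eq_add_of_le' hp
  rw [Nat.add_sub_cancel]
  induction e with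
  | zero => simp
  | succ e ih =>
    rw [sum_range_succ, ih]
    have h1 : 1 ≤ (r + 1) ^ e := Nat.one_le_pow _ _ (by omega)
    have h2 : (r + 1) ^ (e + 1) = (r + 1) ^ e + (r + 1) ^ e * r := by ring
    omega

theorem inc_factor_p {F : Type} [Field F] [Fintype F] [DecidableEq F] {p : ℕ} [Fact p.Prime]
    [CharP F p] {e : ℕ} (hF : Fintype.card F = p ^ e) :
    ∃ (f g : F × F → Option (Fin e → Tri p) → F),
      ∀ i k, (if inc i k then (1 : F) else 0) = ∑ r, f i r * g k r := by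
  have hp : 1 ≤ p := (Fact.out : p.Prime).one_le
  let u : F × F → Tri p → ℕ → F := fun i r s =>
    (((p - 1).choose r.1 * (r.1 : ℕ).choose r.2 : ℕ) : F) *
      ((i.2 ^ p ^ s) ^ (r.2 : ℕ) * (- i.1 ^ p ^ s) ^ ((r.1 : ℕ) - r.2))
  let w : F × F → Tri p → ℕ → F := fun k r s =>
    (k.1 ^ p ^ s) ^ ((r.1 : ℕ) - r.2) * (- k.2 ^ p ^ s) ^ (p - 1 - r.1)
  refine ⟨fun i r => r.elim 1 (fun c => - ∏ s : Fin e, u i (c s) s),
    fun k r => r.elim 1 (fun c => ∏ s : Fin e, w k (c s) s), fun i k => ?_⟩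
  have h1 : ∀ z : F, (if z = 0 then (1 : F) else 0) = 1 - z ^ (p ^ e - 1) := by
    intro z
    split_ifs with hz
    · subst hz
      have h2 : p ^ e - 1 ≠ 0 := by
        have : 1 < Fintype.card F := Fintype.one_lt_card
        omega
      rw [zero_pow h2, sub_zero]
    · rw [← hF, FiniteField.pow_card_sub_one_eq_one z hz, sub_self]
  have h2 : ∀ z : F, z ^ (p ^ e - 1) = ∏ s : Fin e, (z ^ p ^ (s : ℕ)) ^ (p - 1) := by
    intro z
    simp only [← pow_mul]
    rw [Finset.prod_pow_eq_pow_sum, Fin.sum_univ_eq_sum_range (fun s => p ^ s * (p - 1)) e,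
      geom_p hp]
  have h3 : (if inc i k then (1 : F) else 0) = if i.2 - k.1 * i.1 - k.2 = 0 then (1 : F) else 0 := by
    congr 1
    rw [eq_iff_iff, inc]
    constructor
    · intro h
      rw [h]; ring
    · intro h
      linear_combination h
  rw [h3, h1, h2, Fintype.sum_option]
  have h4 : ∀ s : Fin e, ((i.2 - k.1 * i.1 - k.2) ^ p ^ (s : ℕ)) ^ (p - 1) =
      ∑ r : Tri p, u i r s * w k r s := by
    intro s
    have h5 : (i.2 - k.1 * i.1 - k.2) ^ p ^ (s : ℕ) =
        i.2 ^ p ^ (s : ℕ) + (- i.1 ^ p ^ (s : ℕ)) * k.1 ^ p ^ (s : ℕ) + (- k.2 ^ p ^ (s : ℕ)) := by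
      rw [sub_pow_char_pow, sub_pow_char_pow, mul_pow]
      ring
    rw [h5, tri_pow hp]
    refine sum_congr rfl fun r _ => ?_
    simp only [u, w, mul_pow]
    ring
  rw [prod_congr rfl fun s _ => h4 s, Finset.prod_univ_sum, Fintype.piFinset_univ]
  simp only [prod_mul_distrib, Option.elim_none, mul_one, Option.elim_some, neg_mul,
    sum_neg_distrib]
  ring

theorem exists_factor_p {p : ℕ} [Fact p.Prime] {e : ℕ} (he : e ≠ 0) {T : Type} [Fintype T]
    (hT : Fintype.card (Tri p) ^ e + 1 < Fintype.card T) :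
    ∃ (F : Type) (_ : Field F) (_ : Fintype F) (_ : DecidableEq F)
      (xv yv : F × F → T → ZMod p), Fintype.card F = p ^ e ∧
      ∀ i k, ∑ r, xv i r * yv k r = if inc i k then 1 else 0 := by
  classical
  let F := GaloisField p e
  have : Finite F := inferInstance
  let _ : Fintype F := Fintype.ofFinite F
  have hF : Fintype.card F = p ^ e := by
    rw [← Nat.card_eq_fintype_card]
    exact GaloisField.card p e he
  obtain ⟨f, g, hfg⟩ := inc_factor_p hF
  have hcard : Fintype.card (Option (Fin e → Tri p)) < Fintype.card T := by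
    rw [Fintype.card_option, Fintype.card_fun, Fintype.card_fin]
    exact hT
  obtain ⟨xv, yv, t0, -, h⟩ := factor_of_ext (k := ZMod p) (F := F) (T := T)
    (fun i k : F × F => if inc i k then 1 else 0) f g (fun i k => by
      rw [← hfg]; split_ifs <;> simp) hcard
  exact ⟨F, inferInstance, inferInstance, inferInstance, xv, yv, hF, h⟩

theorem exists_e (p : ℕ) (hp : 1 ≤ p) : ∃ e : ℕ, 5 ≤ e ∧ 1200 * p * e * 3 ^ e < 4 ^ e := by
  have h1 := tendsto_self_mul_const_pow_of_lt_one (r := (3 / 4 : ℝ)) (by norm_num) (by norm_num)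
  have hp' : (0 : ℝ) < 1 / (1200 * p) := by positivity
  obtain ⟨e, he1, he2⟩ := ((h1.eventually (gt_mem_nhds hp')).and
    (Filter.eventually_ge_atTop 5)).exists
  refine ⟨e, he2, ?_⟩
  rw [div_pow, lt_div_iff₀ (by positivity), ← mul_div_assoc, div_mul_eq_mul_div,
    div_lt_one (by positivity)] at he1
  have h2 : ((1200 * p * e * 3 ^ e : ℕ) : ℝ) < ((4 ^ e : ℕ) : ℝ) := by
    push_cast
    linarith
  exact_mod_cast h2

/-- the parameters -/
theorem exists_params (p : ℕ) (hp : 2 ≤ p) : ∃ e d m : ℕ, e ≠ 0 ∧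
    Fintype.card (Tri p) ^ e + 1 < d.choose m ∧ 2 * m < d ∧ d < 3 * m ∧
    25 * 2 ^ (d + 1) < 2 * (p ^ e) ^ 2 := by
  classical
  obtain ⟨e, he5, he⟩ := exists_e p (by omega)
  set c := Fintype.card (Tri p) with hc
  have hc1 : 2 * c = p * (p + 1) := card_Tri p
  have hc2 : 4 * c ≤ 3 * p ^ 2 := by nlinarith
  have hc3 : 1 ≤ c := by nlinarith
  set P := (p ^ e) ^ 2 with hP
  have hP1 : 4 ^ e ≤ P := by
    rw [hP, ← pow_mul, mul_comm e 2, pow_mul]
    exact Nat.pow_le_pow_left (by nlinarith) _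
  have hP2 : 1024 ≤ P := le_trans (Nat.pow_le_pow_right (n := 4) (by norm_num) he5) hP1
  have hex : ∃ m, P ≤ 50 * 4 ^ (m + 1) := ⟨P, by
    have : P < 4 ^ P := Nat.lt_pow_self (by norm_num)
    rw [pow_succ]
    omega⟩
  set m := Nat.find hex with hm
  have hm1 : P ≤ 50 * 4 ^ (m + 1) := Nat.find_spec hex
  have hm2 : 2 ≤ m := by
    by_contra h
    have : 4 ^ (m + 1) ≤ 4 ^ 2 := Nat.pow_le_pow_right (by norm_num) (by omega)
    omega
  have hm3 : 50 * 4 ^ m < P := by
    have h := Nat.find_min hex (m := m - 1) (by omega)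
    rw [Nat.sub_add_cancel (by omega)] at h
    omega
  have hm4 : m ≤ p * e := by
    have h1 : p ^ e ≤ 2 ^ (p * e) := by
      rw [pow_mul]
      exact Nat.pow_le_pow_left (Nat.lt_pow_self (by norm_num)).le _
    have h2 : P ≤ 4 ^ (p * e) := by
      calc P ≤ (2 ^ (p * e)) ^ 2 := Nat.pow_le_pow_left h1 2
        _ = 4 ^ (p * e) := by rw [← pow_mul, mul_comm _ 2, pow_mul]; norm_num
    have h3 : 4 ^ m < 4 ^ (p * e) := by omega
    exact ((Nat.pow_lt_pow_iff_right (by norm_num)).1 h3).le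
  refine ⟨e, 2 * m + 1, m, by omega, ?_, by omega, by omega, ?_⟩
  · have h1 : 4 ^ m ≤ (2 * m + 1) * (2 * m + 1).choose m :=
      (Nat.four_pow_le_two_mul_add_one_mul_central_binom m).trans
        (Nat.mul_le_mul_left _ (Nat.choose_le_succ _ _))
    have h2 : c ^ e * 4 ^ e ≤ 3 ^ e * P := by
      rw [← mul_pow, hP, ← pow_mul, mul_comm e 2, pow_mul, ← mul_pow]
      exact Nat.pow_le_pow_left (by omega) _
    have h3 : 1 ≤ c ^ e := Nat.one_le_pow _ _ hc3
    have hpe : 1 ≤ p * e := by nlinarith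
    have h4 : 200 * (2 * m + 1) * (c ^ e + 1) ≤ 1200 * p * e * c ^ e := by
      calc 200 * (2 * m + 1) * (c ^ e + 1) ≤ 200 * (3 * (p * e)) * (2 * c ^ e) :=
            Nat.mul_le_mul (Nat.mul_le_mul_left _ (by omega)) (by omega)
        _ = _ := by ring
    have h5 : 1200 * p * e * c ^ e < P := by
      have h6 : 1200 * p * e * c ^ e * 4 ^ e < P * 4 ^ e := by
        calc 1200 * p * e * c ^ e * 4 ^ e = 1200 * p * e * (c ^ e * 4 ^ e) := by ring
          _ ≤ 1200 * p * e * (3 ^ e * P) := Nat.mul_le_mul_left _ h2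
          _ = P * (1200 * p * e * 3 ^ e) := by ring
          _ < P * 4 ^ e := Nat.mul_lt_mul_of_pos_left he (by omega)
      exact Nat.lt_of_mul_lt_mul_right h6
    have h7 : 200 * (2 * m + 1) * (c ^ e + 1) < 200 * (2 * m + 1) * (2 * m + 1).choose m := by
      calc 200 * (2 * m + 1) * (c ^ e + 1) < P := lt_of_le_of_lt h4 h5
        _ ≤ 200 * 4 ^ m := by rw [pow_succ] at hm1; omega
        _ ≤ 200 * ((2 * m + 1) * (2 * m + 1).choose m) := Nat.mul_le_mul_left _ h1
        _ = _ := by ring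
    exact Nat.lt_of_mul_lt_mul_left h7
  · have h1 : 2 ^ (2 * m + 1 + 1) = 4 * 4 ^ m := by
      rw [pow_succ, pow_succ, pow_mul]
      norm_num
      ring
    omega

end Vale.Agent.N194P
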