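import Vale.Agent.N194P.Tw
import Vale.Agent.N194P.Plane
import Mathlib.GroupTheory.FreeAbelianGroup

/-!
Patterns with anticommuting variables: the square of a sum of anticommuting variables is the sum of
their squares, in every characteristic.
-/

namespace Vale.Agent.N194P

open Finset Vale.Agent.P201.Z Vale.Agent.P201.Z.PA Vale.Agent.P201.Z.PA.Lam

/-- the central element of a scalar -/
def zc {k : Type} [Field k] {V : Type} [AddCommGroup V] (B : V →+ V →+ Additive kˣ) (c : kˣ) :
    Tw B × Multiplicative ℤ := (⟨Additive.ofMul c, 0⟩, 1)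

/-- linear combination of monomials -/
noncomputable def Ex {k : Type} [Field k] {Φ Mo A : Type} [Group Φ] [Fintype Mo] [Ring A]
    [Algebra k A] (η : Φ × Multiplicative ℤ →* A) (mon : Mo → Φ) (Ht : Mo → ℤ) (cf : Mo → k) : A :=
  ∑ a, cf a • η (mon a, Multiplicative.ofAdd (Ht a))

open Classical in
/-- heights of the monomials that occur -/
noncomputable def sp {k : Type} [Field k] {Mo : Type} [Fintype Mo] (Ht : Mo → ℤ) (cf : Mo → k) :
    Finset ℤ := (univ.filter (fun a => cf a ≠ 0)).image Ht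

theorem mem_sp {k : Type} [Field k] {Mo : Type} [Fintype Mo] {Ht : Mo → ℤ} {cf : Mo → k} {h : ℤ} :
    h ∈ sp Ht cf ↔ ∃ a, cf a ≠ 0 ∧ Ht a = h := by
  simp [sp]

/-- rows and types of blocks: combinations of monomials in a twisted group algebra -/
structure Pat (k : Type) [Field k] where
  I : Type
  K : Type
  V : Type
  Mo : Type
  [fI : Fintype I]
  [fK : Fintype K]
  [dI : DecidableEq I]
  [dK : DecidableEq K]
  [aV : AddCommGroup V]
  [fM : Fintype Mo]
  B : V →+ V →+ Additive kˣ
  mon : Mo → Tw B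
  Ht : Mo → ℤ
  inj : Function.Injective Ht
  cfM : I → K → Mo → k
  cfP : I → Mo → k
  cfQ : K → Mo → k
  cf1 : Mo → k
  sp1 : sp Ht cf1 = {0}
  ex1 : ∀ (A : Type) [Ring A] [Algebra k A] (η : Tw B × Multiplicative ℤ →* A),
    Ex η mon Ht cf1 = 1
  mul : ∀ (A : Type) [Ring A] [Algebra k A] (η : Tw B × Multiplicative ℤ →* A),
    (∀ c, η (zc B c) = algebraMap k A c) → ∀ i j,
      Ex η mon Ht (cfP i) * Ex η mon Ht (cfQ j) = Ex η mon Ht (cfM i j)

attribute [instance] Pat.fI Pat.fK Pat.dI Pat.dK Pat.aV Pat.fM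

namespace Pat

variable {k : Type} [Field k] (p : Pat k)

noncomputable def N (i : p.I) (j : p.K) : Finset ℤ := sp p.Ht (p.cfM i j)
noncomputable def A (i : p.I) : Finset ℤ := sp p.Ht (p.cfP i)
noncomputable def C (j : p.K) : Finset ℤ := sp p.Ht (p.cfQ j)

noncomputable def Ttot : ℕ := ∑ j, ∑ i, (p.N i j).card

noncomputable def W4 : ℕ :=
  ∑ j, ∑ j', ∑ i, ∑ i',
    (((p.N i j ×ˢ p.N i' j) ×ˢ (p.N i j' ×ˢ p.N i' j')).filter
      (fun x => x.1.2 - x.1.1 = x.2.2 - x.2.1)).card

end Pat

section Op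

variable {A : Type} [Ring A]

/-- ordered product -/
def op {M : Type} [Monoid M] {d : ℕ} (f : Fin d → M) : M := (List.ofFn f).prod

theorem op_succ {M : Type} [Monoid M] {d : ℕ} (f : Fin (d + 1) → M) :
    op f = f 0 * op (fun j => f j.succ) := by
  rw [op, List.ofFn_succ, List.prod_cons, op]

theorem op_map {M M' : Type} [Monoid M] [Monoid M'] (φ : M →* M') {d : ℕ} (f : Fin d → M) :
    φ (op f) = op (fun j => φ (f j)) := by
  rw [op, op, map_list_prod, List.map_ofFn]
  rfl

theorem op_comm {M : Type} [CommMonoid M] {d : ℕ} (f : Fin d → M) : op f = ∏ j, f j := by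
  rw [op, List.prod_ofFn]

theorem op_mul {M : Type} [Monoid M] {d : ℕ} (f g : Fin d → M) (h : ∀ j j', Commute (f j) (g j')) :
    op f * op g = op (fun j => f j * g j) := by
  induction d with
  | zero => simp [op]
  | succ d ih =>
    have h1 : Commute (op (fun j : Fin d => f j.succ)) (g 0) := by
      apply Commute.list_prod_left
      intro x hx
      obtain ⟨j, rfl⟩ := (List.mem_ofFn' _ _).1 hx
      exact h _ _
    rw [op_succ, op_succ, op_succ, ← ih _ _ (fun j j' => h _ _), mul_assoc, ← mul_assoc (op _),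
      h1.eq]
    simp only [mul_assoc]

theorem op_sum {β : Type} [Fintype β] {d : ℕ} (F : Fin d → β → A) :
    op (fun j => ∑ b, F j b) = ∑ a : Fin d → β, op (fun j => F j (a j)) := by
  induction d with
  | zero => simp [op]
  | succ d ih =>
    rw [op_succ, ih, sum_mul_sum, ← Fintype.sum_prod_type', ← (Fin.consEquiv fun _ => β).sum_comp]
    refine sum_congr rfl fun x _ => ?_
    rw [op_succ]
    simp [Fin.consEquiv]

theorem op_ite {d : ℕ} (P : Fin d → Prop) [DecidablePred P] (f : Fin d → A) :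
    op (fun j => if P j then f j else 0) = if ∀ j, P j then op f else 0 := by
  split_ifs with h
  · simp only [h, if_true]
  · push Not at h
    obtain ⟨j, hj⟩ := h
    apply List.prod_eq_zero
    exact (List.mem_ofFn' _ _).2 ⟨j, if_neg hj⟩

end Op

section Cl

variable (k : Type) [Field k] (d q : ℕ)

/-- the sign cocycle -/
noncomputable def sB : FreeAbelianGroup (Fin d × Fin q) →+ FreeAbelianGroup (Fin d × Fin q) →+
    Additive kˣ :=
  FreeAbelianGroup.lift (fun x => FreeAbelianGroup.lift (fun y =>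
    if x.1 = y.1 ∧ y.2 < x.2 then Additive.ofMul (-1 : kˣ) else 0))

theorem sB_of (x y : Fin d × Fin q) : sB k d q (FreeAbelianGroup.of x) (FreeAbelianGroup.of y) =
    if x.1 = y.1 ∧ y.2 < x.2 then Additive.ofMul (-1 : kˣ) else 0 := by
  rw [sB, FreeAbelianGroup.lift_apply_of, FreeAbelianGroup.lift_apply_of]

/-- a variable -/
noncomputable def xe (j : Fin d) (s : Fin q) : Tw (sB k d q) × Multiplicative ℤ :=
  (⟨0, FreeAbelianGroup.of (j, s)⟩, Multiplicative.ofAdd (bs d q j s : ℤ))

/-- one coordinate of a monomial -/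
noncomputable def xg (j : Fin d) : O q → Tw (sB k d q) × Multiplicative ℤ
  | none => 1
  | some (false, s) => xe k d q j s
  | some (true, s) => xe k d q j s * xe k d q j s

theorem xg_snd (j : Fin d) (b : O q) : (xg k d q j b).2 = Multiplicative.ofAdd (hc d q j b : ℤ) := by
  rcases b with _ | ⟨_ | _, s⟩
  · have h0 : hc d q j none = 0 := by simp only [hc, vv, Pi.zero_apply, zero_mul, sum_const_zero]
    rw [h0]
    rfl
  · rw [hc_some]
    simp [xg, xe]
  · rw [hc_some]
    simp only [xg, xe, Prod.snd_mul, ← ofAdd_add, if_true]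
    congr 1
    push_cast
    ring

/-- the label of a monomial -/
noncomputable def monC (a : Fin d → O q) : Tw (sB k d q) := (op (fun j => xg k d q j (a j))).1

theorem mon_eq (a : Fin d → O q) :
    (monC k d q a, Multiplicative.ofAdd (H a)) = op (fun j => xg k d q j (a j)) := by
  refine Prod.ext rfl ?_
  have h := op_map (MonoidHom.snd (Tw (sB k d q)) (Multiplicative ℤ)) (fun j => xg k d q j (a j))
  rw [op_comm] at h
  change _ = MonoidHom.snd _ _ _
  rw [h]
  simp only [MonoidHom.coe_snd, xg_snd, H, Hn]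
  push_cast
  rw [ofAdd_sum]

theorem xe_comm {j j' : Fin d} (h : j ≠ j') (s t : Fin q) :
    xe k d q j s * xe k d q j' t = xe k d q j' t * xe k d q j s := by
  refine Prod.ext ?_ (mul_comm _ _)
  ext1
  · simp [xe, sB_of, h, h.symm]
  · simp [xe, add_comm]

theorem xe_anti (j : Fin d) {s t : Fin q} (h : t < s) :
    xe k d q j s * xe k d q j t = zc (sB k d q) (-1) * (xe k d q j t * xe k d q j s) := by
  refine Prod.ext ?_ ?_
  · ext1
    · simp [xe, zc, sB_of, h, not_lt_of_gt h]
    · simp [xe, zc, add_comm]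
  · simp [zc, mul_comm]

variable {k d q}
variable {A : Type} [Ring A] [Algebra k A] (η : Tw (sB k d q) × Multiplicative ℤ →* A)

/-- the sum of the variables of a coordinate -/
noncomputable def Lc (j : Fin d) : A := ∑ s, η (xe k d q j s)

omit [Algebra k A] in
theorem Lc_comm (j j' : Fin d) : Commute (Lc η j) (Lc η j') := by
  by_cases h : j = j'
  · rw [h]
  · refine Commute.sum_left _ _ _ fun s _ => Commute.sum_right _ _ _ fun t _ => ?_
    change _ * _ = _ * _
    rw [← map_mul, ← map_mul, xe_comm k d q h]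

theorem Lc_sq (hη : ∀ c, η (zc (sB k d q) c) = algebraMap k A c) (j : Fin d) :
    Lc η j * Lc η j = ∑ s, η (xe k d q j s * xe k d q j s) := by
  have h1 : ∀ s t : Fin q, t < s →
      η (xe k d q j s) * η (xe k d q j t) + η (xe k d q j t) * η (xe k d q j s) = 0 := by
    intro s t h
    rw [← map_mul, ← map_mul, xe_anti k d q j h, map_mul η (zc _ _), hη]
    simp
  rw [Lc, sum_mul_sum, ← Fintype.sum_prod_type', ← univ_product_univ, ← diag_union_offDiag,
    sum_union (disjoint_diag_offDiag _), sum_diag]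
  have h2 : ∑ x ∈ (univ : Finset (Fin q)).offDiag,
      η (xe k d q j x.1) * η (xe k d q j x.2) = 0 := by
    refine sum_involution (fun x _ => x.swap) ?_ ?_ ?_ ?_
    · rintro ⟨s, t⟩ hx
      have h3 : s ≠ t := (mem_offDiag.1 hx).2.2
      rcases lt_or_gt_of_ne h3 with h4 | h4
      · rw [add_comm]
        exact h1 t s h4
      · exact h1 s t h4
    · rintro ⟨s, t⟩ hx _ h
      exact (mem_offDiag.1 hx).2.2 (Prod.mk.inj h).2
    · rintro ⟨s, t⟩ hx
      exact mem_offDiag.2 ⟨mem_univ _, mem_univ _, (mem_offDiag.1 hx).2.2.symm⟩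
    · rintro ⟨s, t⟩ _
      rfl
  rw [h2, add_zero]
  simp only [map_mul]

theorem Lc_pow (hη : ∀ c, η (zc (sB k d q) c) = algebraMap k A c) (j : Fin d) {n : ℕ}
    (hn : n ≤ 2) : Lc η j ^ n = ∑ b : O q, if ty b = n then η (xg k d q j b) else 0 := by
  rw [Fintype.sum_option, Fintype.sum_prod_type, Fintype.sum_bool]
  interval_cases n
  · simp [ty, xg]
  · simp [ty, xg, Lc]
  · rw [sq, Lc_sq η hη]
    simp [ty, xg]

/-- product of powers of the sums -/
noncomputable def Pw (τ : Fin d → ℕ) : A := op (fun j => Lc η j ^ τ j)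

omit [Algebra k A] in
theorem Pw_mul (τ τ' : Fin d → ℕ) : Pw η τ * Pw η τ' = Pw η (fun j => τ j + τ' j) := by
  rw [Pw, Pw, op_mul _ _ (fun j j' => (Lc_comm η j j').pow_pow _ _), Pw]
  simp only [pow_add]

theorem Pw_eq (hη : ∀ c, η (zc (sB k d q) c) = algebraMap k A c) {τ : Fin d → ℕ}
    (hτ : ∀ j, τ j ≤ 2) : Pw η τ = ∑ a : Fin d → O q, if ∀ j, ty (a j) = τ j then
      η (monC k d q a, Multiplicative.ofAdd (H a)) else 0 := by
  rw [Pw]
  simp only [fun j => Lc_pow η hη j (hτ j)]
  rw [op_sum]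
  refine sum_congr rfl fun a _ => ?_
  rw [op_ite, mon_eq, op_map]

/-- coefficients of a combination of products of powers -/
def cfn {ι : Type} [Fintype ι] (c : ι → k) (τ : ι → Fin d → ℕ) (a : Fin d → O q) : k :=
  ∑ i, if ∀ j, ty (a j) = τ i j then c i else 0

theorem Ex_cfn (hη : ∀ c, η (zc (sB k d q) c) = algebraMap k A c) {ι : Type} [Fintype ι]
    (c : ι → k) {τ : ι → Fin d → ℕ} (hτ : ∀ i j, τ i j ≤ 2) :
    Ex η (monC k d q) H (cfn c τ) = ∑ i, c i • Pw η (τ i) := by
  simp only [fun i => Pw_eq η hη (hτ i), smul_sum, Ex, cfn, sum_smul]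
  rw [sum_comm]
  refine sum_congr rfl fun i _ => sum_congr rfl fun a _ => ?_
  split_ifs
  · rfl
  · rw [smul_zero, zero_smul]

theorem card_sp_cfn {ι : Type} [Fintype ι] (c : ι → k) (S : ι → Finset (Fin d)) {r : ℕ}
    (hS : ∀ i, (S i).card = r) :
    (sp H (cfn (q := q) c (fun i j => if j ∈ S i then 1 else 0))).card ≤
      Fintype.card ι * q ^ r := by
  classical
  refine card_image_le.trans ?_
  have h1 : univ.filter (fun a => cfn (q := q) c (fun i j => if j ∈ S i then 1 else 0) a ≠ 0) ⊆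
      univ.biUnion (fun i => Fintype.piFinset (fun j => if j ∈ S i then
        univ.image (fun s : Fin q => (some (false, s) : O q)) else {none})) := by
    intro a ha
    obtain ⟨i, -, hi⟩ := exists_ne_zero_of_sum_ne_zero (mem_filter.1 ha).2
    have h2 : ∀ j, ty (a j) = if j ∈ S i then 1 else 0 := by
      by_contra hcon
      exact hi (if_neg hcon)
    refine mem_biUnion.2 ⟨i, mem_univ _, Fintype.mem_piFinset.2 fun j => ?_⟩
    have h3 := h2 j
    split_ifs at h3 ⊢ with hj
    · obtain ⟨s, hs⟩ := ty_one h3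
      exact mem_image.2 ⟨s, mem_univ _, hs.symm⟩
    · rcases h4 : a j with _ | ⟨t, s⟩
      · exact mem_singleton_self _
      · rw [h4] at h3
        cases t <;> simp [ty] at h3
  refine (card_le_card h1).trans (card_biUnion_le.trans ?_)
  rw [← card_univ, ← smul_eq_mul, ← sum_const]
  refine sum_le_sum fun i _ => ?_
  rw [Fintype.card_piFinset]
  calc _ ≤ ∏ j : Fin d, (if j ∈ S i then q else 1) := by
        refine prod_le_prod' fun j _ => ?_
        split_ifs
        · exact card_image_le.trans (by simp)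
        · simp
    _ = q ^ r := by rw [prod_ite_mem, univ_inter, prod_const, hS]

end Cl

section Inst

variable {k : Type} [Field k] {F : Type} [Field F] [Fintype F] [DecidableEq F] {d m : ℕ}

/-- coefficients of the products -/
def cM (q : ℕ) (xv yv : F × F → TT d m → k) (l x : F × F) : (Fin d → O q) → k :=
  cfn (fun y : TT d m × TT d m => yv l y.1 * xv x y.2) (fun y j => ex y.2.1 y.1.1 j)

/-- rows are lines (long products), types are points (short products) -/
noncomputable def pat (q : ℕ) (xv yv : F × F → TT d m → k) : Pat k where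
  I := F × F
  K := F × F
  V := FreeAbelianGroup (Fin d × Fin q)
  Mo := Fin d → O q
  B := sB k d q
  mon := monC k d q
  Ht := H
  inj := H_inj
  cfM := cM q xv yv
  cfP l := cfn (yv l) (fun S j => if j ∈ S.1ᶜ then 1 else 0)
  cfQ x := cfn (xv x) (fun S j => if j ∈ S.1 then 1 else 0)
  cf1 a := if a = fun _ => none then 1 else 0
  sp1 := by
    ext h
    rw [mem_sp, mem_singleton]
    have h0 : H (fun _ => none : Fin d → O q) = 0 := by simp [H, Hn, hc, vv]
    constructor
    · rintro ⟨a, ha, rfl⟩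
      have h1 : a = fun _ => none := by
        by_contra hcon
        exact ha (if_neg hcon)
      rw [h1, h0]
    · rintro rfl
      exact ⟨fun _ => none, by simp, h0⟩
  ex1 A _ _ η := by
    rw [Ex, sum_eq_single (fun _ => none)]
    · rw [if_pos rfl, one_smul, mon_eq]
      simp [xg, op]
    · intro a _ ha
      rw [if_neg ha, zero_smul]
    · intro h
      exact absurd (mem_univ _) h
  mul A _ _ η hη l x := by
    rw [cM, Ex_cfn η hη _ (fun _ _ => by split_ifs <;> omega),
      Ex_cfn η hη _ (fun _ _ => by split_ifs <;> omega),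
      Ex_cfn η hη _ (fun _ _ => by unfold ex; split_ifs <;> omega), sum_mul_sum,
      Fintype.sum_prod_type]
    refine sum_congr rfl fun S' _ => sum_congr rfl fun S _ => ?_
    rw [smul_mul_smul_comm, Pw_mul]
    congr 2
    funext j
    unfold ex
    by_cases hj : j ∈ S'.1 <;> simp [hj, add_comm]

omit [Field F] [Fintype F] [DecidableEq F] in
theorem cM_main {q : ℕ} {xv yv : F × F → TT d m → k} {l x : F × F} {a : Fin d → O q}
    (ha : Main a) : cM q xv yv l x a = ∑ S, xv x S * yv l S := by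
  classical
  unfold cM cfn
  rw [Fintype.sum_prod_type]
  refine sum_congr rfl fun S _ => ?_
  rw [Finset.sum_eq_single S]
  · rw [if_pos, mul_comm]
    intro j
    rw [ha j]
    unfold ex
    by_cases hj : j ∈ S.1 <;> simp [hj]
  · intro S' _ hne
    rw [if_neg]
    intro hcon
    apply hne
    apply Subtype.ext
    ext j
    have := hcon j
    rw [ha j] at this
    unfold ex at this
    by_cases hj : j ∈ S.1 <;> by_cases hj' : j ∈ S'.1 <;> simp_all
  · intro h
    exact absurd (mem_univ _) h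

omit [Field F] [Fintype F] [DecidableEq F] in
theorem cM_main_or_low {q : ℕ} {xv yv : F × F → TT d m → k} {l x : F × F} {a : Fin d → O q}
    (ha : cM q xv yv l x a ≠ 0) : Main a ∨ Low a := by
  classical
  unfold cM cfn at ha
  obtain ⟨⟨S', S⟩, _, h2⟩ := exists_ne_zero_of_sum_ne_zero ha
  have h3 : ∀ j, ty (a j) = ex S.1 S'.1 j := by
    by_contra hcon
    exact h2 (if_neg hcon)
  by_cases hS : S'.1 ⊆ S.1
  · left
    have : S'.1 = S.1 := eq_of_subset_of_card_le hS (by rw [S.2, S'.2])
    intro j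
    rw [h3 j, this]
    unfold ex
    by_cases hj : j ∈ S.1 <;> simp [hj]
  · right
    obtain ⟨j, hj', hj⟩ := not_subset.1 hS
    refine ⟨j, ?_⟩
    have := h3 j
    unfold ex at this
    rw [if_neg hj, if_pos hj', add_zero] at this
    rcases h4 : a j with _ | ⟨t, s⟩
    · rfl
    · rw [h4] at this
      cases t <;> simp [ty] at this

theorem cov_N {q : ℕ} {xv yv : F × F → TT d m → k}
    (h : ∀ x l, ∑ r, xv x r * yv l r = if inc x l then 1 else 0) (l x : F × F) :
    Cov d q ((pat q xv yv).N l x) (inc x l) := by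
  intro z hz
  obtain ⟨a, ha, hk⟩ := mem_sp.1 hz
  refine ⟨a, hk, ?_⟩
  rcases cM_main_or_low ha with hm | hl
  · left
    refine ⟨hm, ?_⟩
    by_contra hcon
    apply ha
    change cM q xv yv l x a = 0
    rw [cM_main hm, h, if_neg hcon]
  · exact Or.inr hl

theorem card_N {q : ℕ} {xv yv : F × F → TT d m → k}
    (h : ∀ x l, ∑ r, xv x r * yv l r = if inc x l then 1 else 0) {l x : F × F} (hi : inc x l) :
    q ^ d ≤ ((pat q xv yv).N l x).card := by
  classical
  refine (card_main d q).trans ?_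
  rw [← card_image_of_injective _ (H_inj (d := d) (q := q))]
  refine card_le_card fun z hz => ?_
  rw [mem_image] at hz
  obtain ⟨a, ha, rfl⟩ := hz
  refine mem_sp.2 ⟨a, ?_, rfl⟩
  change cM q xv yv l x a ≠ 0
  rw [cM_main (mem_filter.1 ha).2, h, if_pos hi]
  exact one_ne_zero

theorem Ttot_ge {q : ℕ} {xv yv : F × F → TT d m → k}
    (h : ∀ x l, ∑ r, xv x r * yv l r = if inc x l then 1 else 0) :
    q ^ d * Fintype.card F ^ 3 ≤ (pat q xv yv).Ttot := by
  classical
  have h1 : ∀ x : F × F, Fintype.card F * q ^ d ≤ ∑ l : F × F, ((pat q xv yv).N l x).card := by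
    intro x
    rw [← card_inc x, ← smul_eq_mul, ← sum_const]
    refine (sum_le_sum fun l hl => card_N h (mem_filter.1 hl).2).trans ?_
    exact sum_le_sum_of_subset (filter_subset _ _)
  have h2 : ∑ _x : F × F, Fintype.card F * q ^ d ≤ (pat q xv yv).Ttot :=
    sum_le_sum fun x _ => h1 x
  refine le_trans (le_of_eq ?_) h2
  rw [sum_const, card_univ, Fintype.card_prod, smul_eq_mul]
  ring

end Inst

/-- a pattern over the prime field with few additive quadruples and short factors -/
theorem exists_pat (p : ℕ) [Fact p.Prime] (Lam : ℕ → ℕ) :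
    ∃ P : Pat (ZMod p), Fintype.card P.K = Fintype.card P.I ∧ 0 < P.Ttot ∧
      25 * P.W4 ≤ 2 * P.Ttot ^ 2 ∧ Lam (Fintype.card P.I) ≤ P.Ttot ∧
      (∀ j, Lam (Fintype.card P.I) * (P.C j).card ^ 2 ≤ P.Ttot) ∧
      (∀ i, Lam (Fintype.card P.I) * (P.A i).card ^ 3 ≤ P.Ttot ^ 2) := by
  classical
  obtain ⟨e, d, m, he, hm, hd1, hd2, hc⟩ := exists_params p (Fact.out : p.Prime).two_le
  obtain ⟨F, _, _, _, xv, yv, hF, h⟩ := exists_factor_p (p := p) he (T := TT d m)
    (by rw [card_TT]; exact hm)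
  set Λ := Lam (Fintype.card (F × F)) with hΛ
  rw [← hF] at hc
  set f := Fintype.card F with hf
  have hf0 : 0 < f := Fintype.card_pos
  set E := f ^ 8 * (d * (48 * 54 ^ (d - 1))) with hE
  set q := 1 + 25 * E + Λ * (d.choose m) ^ 3 with hq
  have hq1 : 1 ≤ q := by omega
  have hT := Ttot_ge (q := q) h
  have hW : (pat q xv yv).W4 ≤ (2 * q ^ 2) ^ d * (2 * f ^ 4) +
      f ^ 8 * (d * ((48 * q) * (54 * q ^ 2) ^ (d - 1))) :=
    W4_abs hq1 (fun l x => (pat q xv yv).N l x) (fun l x => cov_N h l x)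
  have hd : 1 ≤ d := by (clear * - hd1; omega)
  have hT0 : 0 < q ^ d * f ^ 3 := by (clear * - hq1 hf0; positivity)
  have hC : 1 ≤ d.choose m := le_trans (Nat.le_add_left 1 _) hm.le
  have hf3 : 1 ≤ f ^ 3 := Nat.one_le_pow _ _ hf0
  have hf4 : 1 ≤ f ^ 4 := Nat.one_le_pow _ _ hf0
  refine ⟨pat q xv yv, rfl, lt_of_lt_of_le hT0 hT, ?_, ?_, fun x => ?_, fun l => ?_⟩
  · have e1 : (2 * q ^ 2) ^ d * (2 * f ^ 4) + f ^ 8 * (d * ((48 * q) * (54 * q ^ 2) ^ (d - 1))) =
        2 ^ (d + 1) * (f ^ 4 * q ^ (2 * d)) + E * q ^ (2 * d - 1) := by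
      have e2 : q * (q ^ 2) ^ (d - 1) = q ^ (2 * d - 1) := by
        rw [← pow_mul, ← pow_succ']
        congr 1
        (clear * - hd; omega)
      rw [mul_pow, mul_pow 54, ← pow_mul, pow_succ, hE, ← e2]
      ring
    have e3 : q * q ^ (2 * d - 1) = q ^ (2 * d) := by
      rw [← pow_succ']
      congr 1
      (clear * - hd; omega)
    have h1 : 25 * (pat q xv yv).W4 ≤ 25 * 2 ^ (d + 1) * (f ^ 4 * q ^ (2 * d)) + q ^ (2 * d) := by
      calc 25 * (pat q xv yv).W4
          ≤ 25 * (2 ^ (d + 1) * (f ^ 4 * q ^ (2 * d)) + E * q ^ (2 * d - 1)) := by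
            refine Nat.mul_le_mul_left _ ?_
            rw [← e1]
            exact hW
        _ = 25 * 2 ^ (d + 1) * (f ^ 4 * q ^ (2 * d)) + 25 * E * q ^ (2 * d - 1) := by ring
        _ ≤ _ := by
            refine Nat.add_le_add_left ?_ _
            rw [← e3]
            exact Nat.mul_le_mul_right _ (by (clear * - hq; omega))
    have h2 : q ^ (2 * d) ≤ f ^ 4 * q ^ (2 * d) := Nat.le_mul_of_pos_left _ (by omega)
    calc 25 * (pat q xv yv).W4 ≤ (25 * 2 ^ (d + 1) + 1) * (f ^ 4 * q ^ (2 * d)) := by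
          rw [add_mul, one_mul]
          exact h1.trans (Nat.add_le_add_left h2 _)
      _ ≤ (2 * f ^ 2) * (f ^ 4 * q ^ (2 * d)) :=
          Nat.mul_le_mul_right _ (by (clear * - hc; omega))
      _ = 2 * (q ^ d * f ^ 3) ^ 2 := by ring
      _ ≤ 2 * (pat q xv yv).Ttot ^ 2 := Nat.mul_le_mul_left _ (Nat.pow_le_pow_left hT 2)
  · calc Λ ≤ Λ * (d.choose m) ^ 3 := Nat.le_mul_of_pos_right _ (Nat.one_le_pow _ _ hC)
      _ ≤ q := by (clear * - hq; omega)
      _ ≤ q ^ d := Nat.le_self_pow (by omega) _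
      _ ≤ q ^ d * f ^ 3 := Nat.le_mul_of_pos_right _ (by omega)
      _ ≤ _ := hT
  · have h1 : ((pat q xv yv).C x).card ≤ d.choose m * q ^ m := by
      rw [← card_TT]
      exact card_sp_cfn (xv x) (fun S : TT d m => S.1) (fun S => S.2)
    calc Λ * ((pat q xv yv).C x).card ^ 2 ≤ Λ * (d.choose m * q ^ m) ^ 2 :=
          Nat.mul_le_mul_left _ (Nat.pow_le_pow_left h1 2)
      _ = Λ * (d.choose m) ^ 2 * q ^ (2 * m) := by ring
      _ ≤ q * q ^ (2 * m) := by
          refine Nat.mul_le_mul_right _ ?_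
          have : Λ * (d.choose m) ^ 2 ≤ Λ * (d.choose m) ^ 3 :=
            Nat.mul_le_mul_left _ (Nat.pow_le_pow_right hC (by (clear * -; omega)))
          omega
      _ = q ^ (2 * m + 1) := by ring
      _ ≤ q ^ d := Nat.pow_le_pow_right hq1 (by (clear * - hd1; omega))
      _ ≤ q ^ d * f ^ 3 := Nat.le_mul_of_pos_right _ (by omega)
      _ ≤ _ := hT
  · have h1 : ((pat q xv yv).A l).card ≤ d.choose m * q ^ (d - m) := by
      rw [← card_TT]
      exact card_sp_cfn (yv l) (fun S : TT d m => S.1ᶜ)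
        (fun S => by rw [card_compl, S.2, Fintype.card_fin])
    calc Λ * ((pat q xv yv).A l).card ^ 3 ≤ Λ * (d.choose m * q ^ (d - m)) ^ 3 :=
          Nat.mul_le_mul_left _ (Nat.pow_le_pow_left h1 3)
      _ = Λ * (d.choose m) ^ 3 * q ^ (3 * (d - m)) := by ring
      _ ≤ q * q ^ (3 * (d - m)) := Nat.mul_le_mul_right _ (by (clear * - hq; omega))
      _ = q ^ (3 * (d - m) + 1) := by ring
      _ ≤ q ^ (2 * d) := Nat.pow_le_pow_right hq1 (by (clear * - hd2 hd; omega))
      _ = (q ^ d) ^ 2 := by ring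
      _ ≤ (q ^ d * f ^ 3) ^ 2 := Nat.pow_le_pow_left (Nat.le_mul_of_pos_right _ (by omega)) 2
      _ ≤ _ := Nat.pow_le_pow_left hT 2

end Vale.Agent.N194P
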