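import Vale.Agent.P201.Bd3.B4

/-!
The system of ports given by finite sets of heights; one port stays unmatched.
-/

namespace Vale.Agent.N194P

open Finset Vale.Agent.P201.S

/-- rows with a copy, blocks, and the heights of the ports -/
structure QS where
  R : Type
  B : Type
  [fR : Fintype R]
  [fB : Fintype B]
  [dR : DecidableEq R]
  [dB : DecidableEq B]
  cpy : R → Bool
  S : R → B → Finset ℤ

attribute [instance] QS.fR QS.fB QS.dR QS.dB

namespace QS

variable (p : QS)

/-- all ports -/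
abbrev Pt : Type := (x : p.R × p.B) × {h : ℤ // h ∈ p.S x.1 x.2}

/-- number of ports of a copy -/
noncomputable def num (a : Bool) : ℕ :=
  ∑ r ∈ univ.filter (fun r => p.cpy r = a), ∑ b, (p.S r b).card

variable {p}

theorem pt_ext {q q' : p.Pt} (h1 : q.1.1 = q'.1.1) (h2 : q.1.2 = q'.1.2)
    (h3 : (q.2 : ℤ) = (q'.2 : ℤ)) : q = q' := by
  obtain ⟨⟨r, b⟩, h⟩ := q
  obtain ⟨⟨r', b'⟩, h'⟩ := q'
  simp only at h1 h2
  subst h1 h2
  simp only at h3
  congr 1
  exact Subtype.ext h3

theorem mem_S {q : p.Pt} {r : p.R} {b : p.B} (h1 : q.1.1 = r) (h2 : q.1.2 = b) :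
    (q.2 : ℤ) ∈ p.S r b := by
  obtain ⟨⟨r', b'⟩, h⟩ := q
  simp only at h1 h2
  subst h1 h2
  exact h.2

theorem card_copy (a : Bool) : Fintype.card {q : p.Pt // p.cpy q.1.1 = a} = p.num a := by
  classical
  rw [Fintype.card_subtype, Finset.card_filter]
  unfold num
  rw [Fintype.sum_sigma, Fintype.sum_prod_type, Finset.sum_filter]
  refine Finset.sum_congr rfl fun r _ => ?_
  by_cases h : p.cpy r = a
  · simp only [univ_eq_attach, h, ↓reduceIte, sum_const, card_attach, smul_eq_mul, mul_one]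
  · simp only [univ_eq_attach, h, ↓reduceIte, sum_const_zero]

/-- the removed port belongs to copy `true` and copy `true` has one port more -/
structure Bal (q0 : p.Pt) : Prop where
  num : p.num true = p.num false + 1
  cpy : p.cpy q0.1.1 = true

variable (q0 : p.Pt)

/-- cells: ports of copy `true` except `q0` -/
abbrev CC : Type := {q : p.Pt // p.cpy q.1.1 = true ∧ q ≠ q0}

theorem card_CC (hb : Bal q0) : Fintype.card (CC q0) = p.num false := by
  classical
  have h1 : Fintype.card (CC q0) + 1 = p.num true := by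
    rw [← card_copy true, Fintype.card_subtype, Fintype.card_subtype]
    have h2 : (univ.filter (fun q : p.Pt => p.cpy q.1.1 = true)) =
        insert q0 (univ.filter (fun q : p.Pt => p.cpy q.1.1 = true ∧ q ≠ q0)) := by
      ext q
      simp only [Finset.mem_filter, Finset.mem_univ, true_and, Finset.mem_insert]
      constructor
      · intro h
        by_cases hq : q = q0
        · exact Or.inl hq
        · exact Or.inr ⟨h, hq⟩
      · rintro (rfl | h)
        · exact hb.cpy
        · exact h.1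
    rw [h2, Finset.card_insert_of_notMem (by simp only [ne_eq, mem_filter, mem_univ, not_true_eq_false, and_false, not_false_eq_true])]
  have := hb.num
  omega

/-- the ports of copy `false` are numbered by the cells -/
noncomputable def ee (hb : Bal q0) : CC q0 ≃ {q : p.Pt // p.cpy q.1.1 = false} :=
  Fintype.equivOfCardEq (by rw [card_CC q0 hb, card_copy])

/-- port map -/
noncomputable def pm (hb : Bal q0) (x : CC q0 × Bool) : p.Pt :=
  if x.2 then x.1.1 else (ee q0 hb x.1).1

theorem pm_true (hb : Bal q0) (c : CC q0) : pm q0 hb (c, true) = c.1 := rfl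

theorem pm_false (hb : Bal q0) (c : CC q0) : pm q0 hb (c, false) = (ee q0 hb c).1 := rfl

theorem cpy_pm (hb : Bal q0) (x : CC q0 × Bool) : p.cpy (pm q0 hb x).1.1 = x.2 := by
  obtain ⟨c, a⟩ := x
  cases a
  · exact (ee q0 hb c).2
  · exact c.2.1

theorem pm_inj (hb : Bal q0) : Function.Injective (pm q0 hb) := by
  intro x x' h
  have h2 : x.2 = x'.2 := by rw [← cpy_pm q0 hb x, ← cpy_pm q0 hb x', h]
  obtain ⟨c, a⟩ := x
  obtain ⟨c', a'⟩ := x'
  simp only at h2
  subst h2
  cases a
  · rw [pm_false, pm_false] at h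
    have := (ee q0 hb).injective (Subtype.ext h)
    rw [this]
  · rw [pm_true, pm_true] at h
    rw [Subtype.ext h]

theorem pm_ne (hb : Bal q0) (x : CC q0 × Bool) : pm q0 hb x ≠ q0 := by
  obtain ⟨c, a⟩ := x
  cases a
  · intro h
    have h1 := cpy_pm q0 hb (c, false)
    rw [h, hb.cpy] at h1
    cases h1
  · exact c.2.2

theorem exists_pm (hb : Bal q0) {q : p.Pt} (hq : q ≠ q0) : ∃ x, pm q0 hb x = q := by
  cases h : p.cpy q.1.1
  · refine ⟨((ee q0 hb).symm ⟨q, h⟩, false), ?_⟩
    rw [pm_false, Equiv.apply_symm_apply]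
  · exact ⟨(⟨q, h, hq⟩, true), rfl⟩

/-- the system of ports -/
noncomputable def toSys (hb : Bal q0) : Sys where
  C := CC q0
  R := p.R
  B := p.B
  dC := Classical.decEq _
  rc x := (pm q0 hb x).1.1
  blk x := (pm q0 hb x).1.2
  ht x := (pm q0 hb x).2.1
  inj q q' h1 h2 h3 := pm_inj q0 hb (pt_ext h1 h2 h3)
  cp q q' h := by
    have h1 := cpy_pm q0 hb q
    have h2 := cpy_pm q0 hb q'
    rw [← h1, ← h2, h]

theorem toSys_card (hb : Bal q0) : Fintype.card (toSys q0 hb).C = p.num false := card_CC q0 hb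

theorem toSys_rc (hb : Bal q0) (x : Port (toSys q0 hb)) :
    (toSys q0 hb).rc x = (pm q0 hb x).1.1 := rfl

theorem toSys_blk (hb : Bal q0) (x : Port (toSys q0 hb)) :
    (toSys q0 hb).blk x = (pm q0 hb x).1.2 := rfl

theorem toSys_ht (hb : Bal q0) (x : Port (toSys q0 hb)) :
    (toSys q0 hb).ht x = (pm q0 hb x).2.1 := rfl

theorem card_blk (b : p.B) :
    (univ.filter (fun q : p.Pt => q.1.2 = b)).card = ∑ r, (p.S r b).card := by
  classical
  rw [Finset.card_filter, Fintype.sum_sigma, Fintype.sum_prod_type]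
  refine Finset.sum_congr rfl fun r _ => ?_
  rw [Finset.sum_eq_single b]
  · simp only [univ_eq_attach, ↓reduceIte, sum_const, card_attach, smul_eq_mul, mul_one]
  · intro b' _ hne
    simp only [univ_eq_attach, hne, ↓reduceIte, sum_const_zero]
  · intro h
    exact absurd (Finset.mem_univ _) h

/-- number of ports of a block -/
theorem ports_le (hb : Bal q0) {D : ℕ} (hD : ∀ b, ∑ r, (p.S r b).card ≤ D) (b : (toSys q0 hb).B) :
    (univ.filter (fun q : Port (toSys q0 hb) => (toSys q0 hb).blk q = b)).card ≤ D := by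
  classical
  refine le_trans ?_ (hD b)
  rw [← card_blk (p := p) b]
  refine Finset.card_le_card_of_injOn (pm q0 hb) ?_ ?_
  · intro q hq
    simp only [coe_filter, mem_univ, true_and, Set.mem_ofPred_eq] at hq ⊢
    exact hq
  · intro a _ a' _ h
    exact pm_inj q0 hb h

/-- lower bound for the number of units with a given label -/
theorem le_nu (hb : Bal q0) (r r' : p.R) (d : ℤ) (hne : r ≠ r' ∨ d ≠ 0) :
    (univ.filter (fun b : p.B => b ≠ q0.1.2 ∧ ∃ h ∈ p.S r b, h + d ∈ p.S r' b)).card ≤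
      nu (toSys q0 hb) r r' d := by
  classical
  have key : ∀ b : p.B, (b ≠ q0.1.2 ∧ ∃ h ∈ p.S r b, h + d ∈ p.S r' b) →
      ∃ x : Port (toSys q0 hb) × Port (toSys q0 hb), (toSys q0 hb).blk x.1 = b ∧
        (toSys q0 hb).blk x.2 = b ∧ x.1 ≠ x.2 ∧ (toSys q0 hb).rc x.1 = r ∧
        (toSys q0 hb).rc x.2 = r' ∧ (toSys q0 hb).ht x.2 - (toSys q0 hb).ht x.1 = d := by
    rintro b ⟨hbq, h, hh, hh'⟩
    obtain ⟨x, hx⟩ := exists_pm q0 hb (q := ⟨(r, b), ⟨h, hh⟩⟩) (by
      intro h2; apply hbq; rw [← h2])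
    obtain ⟨x', hx'⟩ := exists_pm q0 hb (q := ⟨(r', b), ⟨h + d, hh'⟩⟩) (by
      intro h2; apply hbq; rw [← h2])
    have a1 : (pm q0 hb x).1 = (r, b) := by rw [hx]
    have a2 : (pm q0 hb x').1 = (r', b) := by rw [hx']
    have a3 : ((pm q0 hb x).2 : ℤ) = h := by rw [hx]
    have a4 : ((pm q0 hb x').2 : ℤ) = h + d := by rw [hx']
    refine ⟨(x, x'), ?_, ?_, ?_, ?_, ?_, ?_⟩
    · rw [toSys_blk, a1]
    · rw [toSys_blk, a2]
    · intro h2
      simp only at h2
      rw [h2, a2] at a1
      rw [h2, a4] at a3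
      rcases hne with h3 | h3
      · apply h3
        simp only [Prod.mk.injEq, and_true] at a1
        exact a1.symm
      · apply h3
        omega
    · rw [toSys_rc, a1]
    · rw [toSys_rc, a2]
    · rw [toSys_ht, toSys_ht, a3, a4]
      omega
  rcases isEmpty_or_nonempty (Port (toSys q0 hb) × Port (toSys q0 hb)) with hE | hE
  · rw [Finset.filter_false_of_mem]
    · simp only [card_empty, zero_le]
    · intro b _ h
      obtain ⟨x, _⟩ := key b h
      exact hE.elim x
  choose! f hf using key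
  unfold nu
  refine Finset.card_le_card_of_injOn f ?_ ?_
  · intro b hb'
    simp only [Finset.coe_filter, Finset.mem_univ, true_and, Set.mem_ofPred_eq] at hb' ⊢
    obtain ⟨h1, h2, h3, h4, h5, h6⟩ := hf b hb'
    exact ⟨by rw [h1, h2], h3, h4, h5, h6⟩
  · intro b hb' c hc' h
    simp only [Finset.coe_filter, Finset.mem_univ, true_and, Set.mem_ofPred_eq] at hb' hc'
    rw [← (hf b hb').1, ← (hf c hc').1, h]

end QS

namespace QS

variable {p : QS} (q0 : p.Pt)

/-- the sum over all ports, if matched ports cancel -/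
theorem sum_ports (hb : Bal q0) {A : Type} [AddCommGroup A] (f : p.R → p.B → ℤ → A)
    (σ : Equiv.Perm (toSys q0 hb).C)
    (h : ∀ c : (toSys q0 hb).C,
      f ((toSys q0 hb).rc (c, true)) ((toSys q0 hb).blk (c, true)) ((toSys q0 hb).ht (c, true)) +
      f ((toSys q0 hb).rc (σ c, false)) ((toSys q0 hb).blk (σ c, false))
        ((toSys q0 hb).ht (σ c, false)) = 0) :
    ∑ r, ∑ b, ∑ z ∈ p.S r b, f r b z = f q0.1.1 q0.1.2 q0.2 := by
  classical
  let g : p.Pt → A := fun q => f q.1.1 q.1.2 q.2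
  have h1 : ∑ r, ∑ b, ∑ z ∈ p.S r b, f r b z = ∑ q : p.Pt, g q := by
    rw [Fintype.sum_sigma, Fintype.sum_prod_type]
    refine sum_congr rfl fun r _ => sum_congr rfl fun b _ => ?_
    exact (Finset.sum_coe_sort (p.S r b) (fun z => f r b z)).symm
  have h2 : (univ : Finset p.Pt) = insert q0 (univ.image (pm q0 hb)) := by
    ext q
    simp only [mem_univ, mem_insert, mem_image, true_and, true_iff]
    by_cases hq : q = q0
    · exact Or.inl hq
    · exact Or.inr (exists_pm q0 hb hq)
  have h3 : q0 ∉ univ.image (pm q0 hb) := by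
    intro hq
    obtain ⟨x, -, hx⟩ := mem_image.1 hq
    exact pm_ne q0 hb x hx
  rw [h1, h2, sum_insert h3, sum_image (fun a _ b _ hab => pm_inj q0 hb hab),
    Fintype.sum_prod_type]
  simp only [Fintype.sum_bool, sum_add_distrib]
  have h4 : ∑ c : CC q0, g (pm q0 hb (c, false)) = ∑ c : CC q0, g (pm q0 hb (σ c, false)) :=
    (Equiv.sum_comp σ (fun c => g (pm q0 hb (c, false)))).symm
  have h5 : ∑ c : CC q0, (g (pm q0 hb (c, true)) + g (pm q0 hb (σ c, false))) = 0 :=
    sum_eq_zero (fun c _ => h c)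
  rw [h4, ← sum_add_distrib, h5, add_zero]

end QS

end Vale.Agent.N194P
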