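import Vale.Agent.N194P.Pat
import Vale.Agent.N194P.Ports

/-!
The system of ports of a pattern.  With `u = t ^ M` the rows are `(1 - u) P_i` (in both copies),
`1 - u ^ 2` (copy `true`), `1 - u` (copy `false`), the blocks are `Q_j` (`n` times), `1 - u`
(`n + 1` times), `1 - u ^ 2` (`n` times).
-/

namespace Vale.Agent.N194P

open Finset
open Vale.Agent.P194.M (dil dil_inj card_dil E4 dil_eq_dz E4_dz sum_isLeft sum_isRight w_arith
  nu2_le_N)

variable {k : Type} [Field k]

/-- rows -/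
abbrev Rw (p : Pat k) : Type := (p.I × Bool) ⊕ Bool

/-- blocks -/
abbrev Bk (p : Pat k) (n : ℕ) : Type := (p.K × Fin n) ⊕ (Fin (n + 1) ⊕ Fin n)

/-- copy of a row -/
def cpy {p : Pat k} : Rw p → Bool
  | Sum.inl x => x.2
  | Sum.inr a => a

/-- exponents of `u` -/
def Au {p : Pat k} {n : ℕ} : Rw p → Bk p n → Finset ℕ
  | Sum.inl _, Sum.inl _ => {0, 1}
  | Sum.inr true, Sum.inl _ => {0, 2}
  | Sum.inr false, Sum.inl _ => {0, 1}
  | Sum.inl _, Sum.inr (Sum.inl _) => {0, 1, 2}
  | Sum.inl _, Sum.inr (Sum.inr _) => {0, 1, 2, 3}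
  | Sum.inr true, Sum.inr (Sum.inl _) => {0, 1, 2, 3}
  | Sum.inr false, Sum.inr (Sum.inl _) => {0, 1, 2}
  | Sum.inr true, Sum.inr (Sum.inr _) => {0, 2, 4}
  | Sum.inr false, Sum.inr (Sum.inr _) => {0, 1, 2, 3}

/-- heights of the factor with small exponents -/
noncomputable def fu (p : Pat k) (n : ℕ) : Rw p → Bk p n → Finset ℤ
  | Sum.inl x, Sum.inl y => p.N x.1 y.1
  | Sum.inr _, Sum.inl y => p.C y.1
  | Sum.inl x, Sum.inr _ => p.A x.1
  | Sum.inr _, Sum.inr _ => {0}

/-- ports of row `r` in block `b` -/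
noncomputable def Sf (p : Pat k) (n : ℕ) (M : ℤ) (r : Rw p) (b : Bk p n) : Finset ℤ :=
  dil M (Au r b) (fu p n r b)

/-- `M` is large for `p` -/
structure Big (p : Pat k) (M L : ℤ) : Prop where
  L0 : 0 ≤ L
  lt : 8 * L < M
  hH : ∀ a, |p.Ht a| ≤ L

theorem Big.sp {p : Pat k} {M L : ℤ} (hB : Big p M L) (cf : p.Mo → k) :
    ∀ h ∈ sp p.Ht cf, |h| ≤ L := by
  intro h hh
  obtain ⟨a, -, rfl⟩ := mem_sp.1 hh
  exact hB.hH a

theorem exists_big (p : Pat k) : ∃ M L : ℤ, Big p M L := by
  have h0 : 0 ≤ ∑ a, |p.Ht a| := sum_nonneg fun _ _ => abs_nonneg _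
  exact ⟨8 * (∑ a, |p.Ht a|) + 1, ∑ a, |p.Ht a|, h0, by linarith, fun a =>
    single_le_sum (f := fun a => |p.Ht a|) (fun _ _ => abs_nonneg _) (mem_univ a)⟩

theorem fu_le {p : Pat k} {n : ℕ} {M L : ℤ} (hB : Big p M L) (r : Rw p) (b : Bk p n) :
    ∀ h ∈ fu p n r b, |h| ≤ L := by
  rcases r with x | x <;> rcases b with y | y <;> simp only [fu]
  · exact hB.sp _
  · exact hB.sp _
  · exact hB.sp _
  · intro h hh
    rw [mem_singleton.1 hh, abs_zero]
    exact hB.L0

theorem card_Sf {p : Pat k} {n : ℕ} {M L : ℤ} (hB : Big p M L) (r : Rw p) (b : Bk p n) :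
    (Sf p n M r b).card = (Au r b).card * (fu p n r b).card := by
  have := hB.lt
  have := hB.L0
  rw [Sf, card_dil (L := L) (by (clear n r b; linarith)) _ _ (fu_le hB r b)]

theorem d01 : ({0, 1} : Finset ℕ).card = 2 := by decide
theorem d02 : ({0, 2} : Finset ℕ).card = 2 := by decide
theorem d012 : ({0, 1, 2} : Finset ℕ).card = 3 := by decide
theorem d024 : ({0, 2, 4} : Finset ℕ).card = 3 := by decide
theorem d0123 : ({0, 1, 2, 3} : Finset ℕ).card = 4 := by decide

/-- number of ports of a copy -/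
noncomputable def num (p : Pat k) (n : ℕ) (M : ℤ) (a : Bool) : ℕ :=
  ∑ r ∈ univ.filter (fun r : Rw p => cpy r = a), ∑ b : Bk p n, (Sf p n M r b).card

theorem num_eq (p : Pat k) (n : ℕ) (M : ℤ) (a : Bool) :
    num p n M a = ∑ i : p.I, ∑ b : Bk p n, (Sf p n M (Sum.inl (i, a)) b).card +
      ∑ b : Bk p n, (Sf p n M (Sum.inr a) b).card := by
  classical
  unfold num
  rw [Finset.sum_filter, Fintype.sum_sum_type, Fintype.sum_prod_type]
  congr 1
  · refine Finset.sum_congr rfl fun i _ => ?_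
    cases a <;> simp [cpy]
  · cases a <;> simp [cpy]

theorem num_bal {p : Pat k} {n : ℕ} {M L : ℤ} (hB : Big p M L) :
    num p n M true = num p n M false + 1 := by
  have c1 : ∀ a : Bool, ∀ i : p.I, ∀ b : Bk p n, (Sf p n M (Sum.inl (i, a)) b).card =
      (Sf p n M (Sum.inl (i, false)) b).card := by
    intro a i b
    rw [card_Sf hB, card_Sf hB]
    rcases b with y | (y | y) <;> rfl
  rw [num_eq, num_eq]
  simp_rw [c1 true]
  have c2 : ∑ b : Bk p n, (Sf p n M (Sum.inr true) b).card =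
      ∑ b : Bk p n, (Sf p n M (Sum.inr false) b).card + 1 := by
    rw [Fintype.sum_sum_type, Fintype.sum_sum_type, Fintype.sum_sum_type, Fintype.sum_sum_type]
    simp only [card_Sf hB, Au, fu, Finset.card_singleton, mul_one, d01, d02, d012, d024, d0123]
    simp only [sum_const, card_univ, Fintype.card_fin, smul_eq_mul]
    ring
  rw [c2]
  ring

/-- lower bound for the number of cells -/
theorem num_ge {p : Pat k} {n : ℕ} {M L : ℤ} (hB : Big p M L) :
    2 * n * p.Ttot ≤ num p n M false := by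
  rw [num_eq]
  refine le_trans ?_ (Nat.le_add_right _ _)
  have h1 : ∀ i : p.I, 2 * n * ∑ j, (p.N i j).card ≤
      ∑ b : Bk p n, (Sf p n M (Sum.inl (i, false)) b).card := by
    intro i
    rw [Fintype.sum_sum_type]
    refine le_trans ?_ (Nat.le_add_right _ _)
    rw [Fintype.sum_prod_type]
    simp only [card_Sf hB, Au, fu, d01]
    simp only [Finset.sum_const, Finset.card_univ, Fintype.card_fin, smul_eq_mul]
    rw [Finset.mul_sum]
    apply le_of_eq
    refine Finset.sum_congr rfl fun j _ => ?_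
    ring
  calc 2 * n * p.Ttot = ∑ i : p.I, 2 * n * ∑ j, (p.N i j).card := by
        rw [Pat.Ttot, Finset.sum_comm, Finset.mul_sum]
    _ ≤ _ := Finset.sum_le_sum fun i _ => h1 i

/-- the port that stays unmatched -/
theorem zero_mem {p : Pat k} {n : ℕ} {M : ℤ} :
    (0 : ℤ) ∈ Sf p n M (Sum.inr true) (Sum.inr (Sum.inl 0)) := by
  rw [Sf, dil, Finset.mem_image]
  refine ⟨(0, 0), ?_, by simp⟩
  rw [Finset.mem_product]
  exact ⟨by simp [Au], by simp [fu]⟩

namespace Ok

/-- types of blocks -/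
abbrev Ty (p : Pat k) : Type := p.K ⊕ Bool

/-- type of a block -/
def ty {p : Pat k} {n : ℕ} : Bk p n → Ty p
  | Sum.inl y => Sum.inl y.1
  | Sum.inr (Sum.inl _) => Sum.inr true
  | Sum.inr (Sum.inr _) => Sum.inr false

/-- a block of given type -/
def rp {p : Pat k} : Ty p → Bk p 1
  | Sum.inl j => Sum.inl (j, 0)
  | Sum.inr true => Sum.inr (Sum.inl 0)
  | Sum.inr false => Sum.inr (Sum.inr 0)

/-- ports of a row in a block of given type -/
noncomputable def Tt (p : Pat k) (M : ℤ) (r : Rw p) (a : Ty p) : Finset ℤ := Sf p 1 M r (rp a)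

theorem Sf_ty (p : Pat k) (n : ℕ) (M : ℤ) (r : Rw p) (b : Bk p n) :
    Sf p n M r b = Tt p M r (ty b) := by
  rcases r with x | (_ | _) <;> rcases b with y | (y | y) <;> rfl

/-- total number of ports of one block of each type -/
noncomputable def S0 (p : Pat k) (M : ℤ) : ℕ := ∑ a : Ty p, ∑ r : Rw p, (Tt p M r a).card

/-- the constant -/
noncomputable def DD (p : Pat k) (M : ℤ) : ℕ := 2 * ((Fintype.card p.K + 3) * (S0 p M + 1))

theorem sum_le_S0 (p : Pat k) (n : ℕ) (M : ℤ) (b : Bk p n) :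
    ∑ r : Rw p, (Sf p n M r b).card ≤ S0 p M := by
  simp only [Sf_ty]
  exact Finset.single_le_sum (f := fun a : Ty p => ∑ r : Rw p, (Tt p M r a).card)
    (fun _ _ => Nat.zero_le _) (Finset.mem_univ (ty b))

theorem ports (p : Pat k) (n : ℕ) (M : ℤ) (b : Bk p n) :
    ∑ r : Rw p, (Sf p n M r b).card ≤ DD p M := by
  refine (sum_le_S0 p n M b).trans ?_
  unfold DD
  have : 1 ≤ Fintype.card p.K + 3 := by omega
  nlinarith only []

theorem card_Bk (p : Pat k) (n : ℕ) : Fintype.card (Bk p n) = Fintype.card p.K * n + (n + 1 + n) := by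
  simp only [Fintype.card_sum, Fintype.card_prod, Fintype.card_fin]

theorem card_Bk_le (p : Pat k) {n : ℕ} (hn : 1 ≤ n) :
    Fintype.card (Bk p n) ≤ (Fintype.card p.K + 3) * n := by
  rw [card_Bk]
  linarith

theorem num_le (p : Pat k) {n : ℕ} (hn : 1 ≤ n) (M : ℤ) (a : Bool) :
    num p n M a ≤ (Fintype.card p.K + 3) * n * S0 p M := by
  classical
  calc num p n M a ≤ ∑ r : Rw p, ∑ b : Bk p n, (Sf p n M r b).card := by
        unfold num
        exact Finset.sum_le_sum_of_subset (Finset.filter_subset _ _)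
    _ = ∑ b : Bk p n, ∑ r : Rw p, (Sf p n M r b).card := Finset.sum_comm
    _ ≤ ∑ _b : Bk p n, S0 p M := Finset.sum_le_sum fun b _ => sum_le_S0 p n M b
    _ = Fintype.card (Bk p n) * S0 p M := by
        rw [Finset.sum_const, Finset.card_univ, smul_eq_mul]
    _ ≤ _ := Nat.mul_le_mul_right _ (card_Bk_le p hn)

/-- at least `n` ports of copy `false` -/
theorem le_num {p : Pat k} {n : ℕ} {M L : ℤ} (hB : Big p M L) : n ≤ num p n M false := by
  rw [num_eq]
  refine le_trans ?_ (Nat.le_add_left _ _)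
  rw [Fintype.sum_sum_type, Fintype.sum_sum_type]
  refine le_trans ?_ (Nat.le_add_left _ _)
  refine le_trans ?_ (Nat.le_add_left _ _)
  simp only [card_Sf hB, Au, fu, Finset.card_singleton, mul_one, d0123]
  simp only [Finset.sum_const, Finset.card_univ, Fintype.card_fin, smul_eq_mul]
  omega

theorem blocks {p : Pat k} {n : ℕ} {M L : ℤ} (hB : Big p M L) (hn : 1 ≤ n) :
    Fintype.card (Bk p n) ≤ DD p M * num p n M false := by
  have h1 := card_Bk_le p hn
  have h2 : n ≤ num p n M false := le_num hB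
  calc Fintype.card (Bk p n) ≤ (Fintype.card p.K + 3) * n := h1
    _ ≤ (Fintype.card p.K + 3) * num p n M false := Nat.mul_le_mul_left _ h2
    _ ≤ DD p M * num p n M false := by
        apply Nat.mul_le_mul_right
        unfold DD
        nlinarith only []

/-- every type has at least `n` blocks -/
theorem fibre {p : Pat k} {n : ℕ} (a : Ty p) :
    n ≤ (univ.filter (fun b : Bk p n => ty b = a)).card := by
  classical
  have key : ∀ f : Fin n → Bk p n, Function.Injective f → (∀ j, ty (f j) = a) →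
      n ≤ (univ.filter (fun b : Bk p n => ty b = a)).card := by
    intro f hf ha
    calc n = (univ : Finset (Fin n)).card := by simp only [card_univ, Fintype.card_fin]
      _ = ((univ : Finset (Fin n)).image f).card := (Finset.card_image_of_injective _ hf).symm
      _ ≤ _ := by
        apply Finset.card_le_card
        intro b hb
        rw [Finset.mem_image] at hb
        obtain ⟨j, _, rfl⟩ := hb
        rw [Finset.mem_filter]
        exact ⟨Finset.mem_univ _, ha j⟩
  rcases a with j0 | (_ | _)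
  · exact key (fun j => Sum.inl (j0, j)) (fun i j h => by simpa using h) (fun j => rfl)
  · exact key (fun j => Sum.inr (Sum.inr j)) (fun i j h => by simpa using h) (fun j => rfl)
  · exact key (fun j => Sum.inr (Sum.inl j.castSucc)) (fun i j h => by simpa using h)
      (fun j => rfl)

/-- `labels`: for two ports `(r, b, h)`, `(r', b, h')` the number of blocks `≠ b0` that contain ports
of the rows `r`, `r'` at distance `h' - h` is at least `num / DD`. -/
theorem labels (p : Pat k) {n : ℕ} (hn : 2 ≤ n) (M : ℤ) (b0 b : Bk p n) (r r' : Rw p) (h h' : ℤ)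
    (hh : h ∈ Sf p n M r b) (hh' : h' ∈ Sf p n M r' b) :
    num p n M false ≤ DD p M * (univ.filter (fun b1 : Bk p n => b1 ≠ b0 ∧
      ∃ h1 ∈ Sf p n M r b1, h1 + (h' - h) ∈ Sf p n M r' b1)).card := by
  classical
  set A := univ.filter (fun b1 : Bk p n => b1 ≠ b0 ∧
      ∃ h1 ∈ Sf p n M r b1, h1 + (h' - h) ∈ Sf p n M r' b1) with hA
  have h1 : (univ.filter (fun b1 : Bk p n => ty b1 = ty b)).erase b0 ⊆ A := by
    intro b1 hb1
    rw [Finset.mem_erase, Finset.mem_filter] at hb1
    rw [hA, Finset.mem_filter]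
    refine ⟨Finset.mem_univ _, hb1.1, h, ?_, ?_⟩
    · rw [Sf_ty, hb1.2.2, ← Sf_ty]; exact hh
    · rw [Sf_ty, hb1.2.2, ← Sf_ty]
      have : h + (h' - h) = h' := by ring
      rw [this]; exact hh'
  have h2 : n ≤ A.card + 1 := by
    have h3 := Finset.card_le_card h1
    have h4 := fibre (n := n) (ty b)
    have h5 := Finset.pred_card_le_card_erase (s := univ.filter (fun b1 : Bk p n => ty b1 = ty b))
      (a := b0)
    omega
  have h6 : n ≤ 2 * A.card := by omega
  calc num p n M false ≤ (Fintype.card p.K + 3) * n * S0 p M := num_le p (by omega) M false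
    _ ≤ (Fintype.card p.K + 3) * (2 * A.card) * (S0 p M + 1) := by
        apply Nat.mul_le_mul
        · exact Nat.mul_le_mul_left _ h6
        · omega
    _ = DD p M * A.card := by unfold DD; ring

end Ok

/-- rows and blocks -/
noncomputable def ps (p : Pat k) (n : ℕ) (M : ℤ) : QS where
  R := Rw p
  B := Bk p n
  cpy := cpy
  S := Sf p n M

/-- the unmatched port -/
noncomputable def q0 (p : Pat k) (n : ℕ) (M : ℤ) : (ps p n M).Pt :=
  ⟨((Sum.inr true : Rw p), (Sum.inr (Sum.inl 0) : Bk p n)), ⟨0, zero_mem (n := n)⟩⟩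

theorem bal {p : Pat k} {M L : ℤ} (n : ℕ) (hB : Big p M L) : QS.Bal (q0 p n M) :=
  ⟨num_bal hB, rfl⟩

/-- the system of ports -/
noncomputable def sys {p : Pat k} {M L : ℤ} (n : ℕ) (hB : Big p M L) : Vale.Agent.P201.S.Sys :=
  QS.toSys (q0 p n M) (bal n hB)

theorem sys_card {p : Pat k} {M L : ℤ} (n : ℕ) (hB : Big p M L) :
    Fintype.card (sys n hB).C = num p n M false := QS.toSys_card (q0 p n M) (bal n hB)

theorem le_card {p : Pat k} {M L : ℤ} (n : ℕ) (hB : Big p M L) : n ≤ Fintype.card (sys n hB).C := by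
  rw [sys_card]
  exact Ok.le_num hB

theorem ok_of {p : Pat k} {M L : ℤ} {n : ℕ} (hB : Big p M L) (hn : 2 ≤ n)
    (hw : 2 * Vale.Agent.P201.S.nu2 (sys n hB) ≤ (num p n M false) ^ 2) :
    (sys n hB).Ok (Ok.DD p M) where
  ports b := QS.ports_le (q0 p n M) (bal n hB) (D := Ok.DD p M) (fun b => Ok.ports p n M b) b
  blocks := by
    rw [sys_card]
    exact Ok.blocks hB (by omega)
  labels := by
    intro q q' hb hne
    rw [sys_card]
    have h1 := Ok.labels p hn M (q0 p n M).1.2 ((sys n hB).blk q) ((sys n hB).rc q)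
      ((sys n hB).rc q') ((sys n hB).ht q) ((sys n hB).ht q')
      (QS.pm (q0 p n M) (bal n hB) q).2.2 (by rw [hb]; exact (QS.pm (q0 p n M) (bal n hB) q').2.2)
    refine h1.trans (Nat.mul_le_mul_left _ ?_)
    refine QS.le_nu (q0 p n M) (bal n hB) _ _ _ ?_
    by_contra hcon
    rw [not_or, not_not, not_not] at hcon
    apply hne
    refine (sys n hB).inj q q' hcon.1 hb ?_
    have := hcon.2
    omega
  w := by
    rw [sys_card]
    exact hw

theorem Au_le {p : Pat k} {n : ℕ} (r : Rw p) (b : Bk p n) : ∀ a ∈ Au r b, a ≤ 10 := by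
  intro a ha
  rcases r with x | (_ | _) <;> rcases b with y | (y | y) <;>
    simp only [Au, Finset.mem_insert, Finset.mem_singleton] at ha <;> omega

/-- heights are bounded -/
theorem Sf_le {p : Pat k} {n : ℕ} {M L : ℤ} (hB : Big p M L) (r : Rw p) (b : Bk p n) :
    ∀ h ∈ Sf p n M r b, |h| ≤ 10 * M + L := by
  intro h hh
  rw [Sf, dil, Finset.mem_image] at hh
  obtain ⟨⟨a, z⟩, hx, rfl⟩ := hh
  rw [Finset.mem_product] at hx
  have h1 := Au_le r b a hx.1
  have h2 := fu_le hB r b z hx.2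
  have h3 := hB.lt
  have h4 := hB.L0
  have h5 : |M * (a : ℤ)| ≤ 10 * M := by
    rw [abs_of_nonneg (mul_nonneg (by linarith only [h3, h4]) (by positivity))]
    have : (a : ℤ) ≤ 10 := by exact_mod_cast h1
    nlinarith only [h1, h3, h4]
  calc |M * (a : ℤ) + z| ≤ |M * (a : ℤ)| + |z| := abs_add_le _ _
    _ ≤ 10 * M + L := by linarith only [h2, h5]

/-- heights are bounded independently of `n` -/
theorem sys_ht {p : Pat k} {M L : ℤ} (n : ℕ) (hB : Big p M L)
    (q : Vale.Agent.P201.S.Port (sys n hB)) :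
    ((sys n hB).ht q).natAbs ≤ (10 * M + L).natAbs := by
  have h1 := Sf_le hB _ _ _ (QS.pm (q0 p n M) (bal n hB) q).2.2
  have h2 : (((sys n hB).ht q).natAbs : ℤ) ≤ ((10 * M + L).natAbs : ℤ) := by
    rw [Int.natCast_natAbs, Int.natCast_natAbs]
    exact h1.trans (le_abs_self _)
  exact_mod_cast h2

section W

open Vale.Agent.P201.S

variable {p : Pat k} {n : ℕ} {M L : ℤ}

/-- main row -/
def mr (r : Rw p) : Bool := r.isLeft

/-- main block -/
def mb (b : Bk p n) : Bool := b.isLeft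

theorem E4_two : E4 {0, 1} {0, 1} {0, 1} {0, 1} = 6 := by decide

theorem E4_main (hB : Big p M L) (x x' : p.I × Bool) (y y' : p.K × Fin n) :
    E4 (Sf p n M (Sum.inl x) (Sum.inl y)) (Sf p n M (Sum.inl x') (Sum.inl y))
      (Sf p n M (Sum.inl x) (Sum.inl y')) (Sf p n M (Sum.inl x') (Sum.inl y')) ≤
      6 * E4 (p.N x.1 y.1) (p.N x'.1 y.1) (p.N x.1 y'.1) (p.N x'.1 y'.1) := by
  have hM : 4 * L < M := by have := hB.lt; have := hB.L0; linarith
  rw [Sf, Sf, Sf, Sf, dil_eq_dz, dil_eq_dz, dil_eq_dz, dil_eq_dz]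
  have h3 : ({0, 1} : Finset ℕ).image (fun a : ℕ => (a : ℤ)) = {0, 1} := by decide
  simp only [Au, fu, h3]
  refine (E4_dz hM (hB.sp _) (hB.sp _) (hB.sp _) (hB.sp _)).trans ?_
  rw [E4_two]
  rfl

/-- the main sum -/
theorem main_sum (hB : Big p M L) :
    ∑ b ∈ univ.filter (fun b : Bk p n => mb b = true),
      ∑ b' ∈ univ.filter (fun b : Bk p n => mb b = true),
      ∑ r ∈ univ.filter (fun r : Rw p => mr r = true),
      ∑ r' ∈ univ.filter (fun r : Rw p => mr r = true),
        E4 (Sf p n M r b) (Sf p n M r' b) (Sf p n M r b') (Sf p n M r' b') ≤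
      24 * n ^ 2 * p.W4 := by
  unfold mb mr
  rw [sum_isLeft]
  simp_rw [sum_isLeft]
  have h1 : ∑ y : p.K × Fin n, ∑ y' : p.K × Fin n, ∑ x : p.I × Bool, ∑ x' : p.I × Bool,
      E4 (Sf p n M (Sum.inl x) (Sum.inl y)) (Sf p n M (Sum.inl x') (Sum.inl y))
        (Sf p n M (Sum.inl x) (Sum.inl y')) (Sf p n M (Sum.inl x') (Sum.inl y')) ≤
      ∑ y : p.K × Fin n, ∑ y' : p.K × Fin n, ∑ x : p.I × Bool, ∑ x' : p.I × Bool,
      6 * E4 (p.N x.1 y.1) (p.N x'.1 y.1) (p.N x.1 y'.1) (p.N x'.1 y'.1) :=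
    sum_le_sum fun y _ => sum_le_sum fun y' _ => sum_le_sum fun x _ => sum_le_sum fun x' _ =>
      E4_main hB x x' y y'
  refine h1.trans (le_of_eq ?_)
  have h2 : p.W4 = ∑ j, ∑ j', ∑ i, ∑ i', E4 (p.N i j) (p.N i' j) (p.N i j') (p.N i' j') := rfl
  rw [h2]
  simp only [Fintype.sum_prod_type, Finset.sum_const, Finset.card_univ, Fintype.card_fin,
    Fintype.card_bool, smul_eq_mul]
  simp only [← Finset.mul_sum]
  ring

theorem extra_block (hB : Big p M L) {q : ℕ} (hq : ∀ j, (p.C j).card ≤ q) (b : Bk p n) :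
    ∑ r ∈ univ.filter (fun r : Rw p => mr r = false), (Sf p n M r b).card ≤ 4 * q + 13 := by
  unfold mr
  rw [sum_isRight, Fintype.sum_bool, card_Sf hB, card_Sf hB]
  rcases b with y | (y | y)
  · simp only [Au, fu, d01, d02]
    have := hq y.1
    omega
  · simp only [Au, fu, Finset.card_singleton, d012, d0123]
    omega
  · simp only [Au, fu, Finset.card_singleton, d024, d0123]
    omega

theorem extra_row (hB : Big p M L) {q : ℕ} (hq : ∀ j, (p.C j).card ≤ q)
    (r : Rw p) (hr : mr r = false) :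
    ∑ b : Bk p n, (Sf p n M r b).card ≤ 2 * n * Fintype.card p.K * q + 7 * (2 * n + 1) := by
  rcases r with x | a
  · simp [mr] at hr
  have h1 : ∀ b : Bk p n, (Sf p n M (Sum.inr a) b).card ≤ match b with
      | Sum.inl _ => 2 * q
      | Sum.inr _ => 7 := by
    intro b
    rw [card_Sf hB]
    rcases b with y | (y | y)
    · cases a <;> simp only [Au, fu, d01, d02] <;> exact Nat.mul_le_mul_left _ (hq y.1)
    · cases a <;> simp only [Au, fu, Finset.card_singleton, d012, d0123] <;> omega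
    · cases a <;> simp only [Au, fu, Finset.card_singleton, d024, d0123] <;> omega
  refine (Finset.sum_le_sum fun b _ => h1 b).trans ?_
  rw [Fintype.sum_sum_type]
  simp only [Finset.sum_const, Finset.card_univ, Fintype.card_prod, Fintype.card_fin,
    Fintype.card_sum, smul_eq_mul]
  apply le_of_eq
  ring

theorem main_special (hB : Big p M L) {pp : ℕ} (hp : ∀ i, (p.A i).card ≤ pp)
    (r : Rw p) (b : Bk p n) (hr : mr r = true) (hb : mb b = false) :
    (Sf p n M r b).card ≤ 7 * pp := by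
  rcases r with x | a
  · rcases b with y | (y | y)
    · simp [mb] at hb
    · rw [card_Sf hB]
      simp only [Au, fu, d012]
      have := hp x.1
      omega
    · rw [card_Sf hB]
      simp only [Au, fu, d0123]
      have := hp x.1
      omega
  · simp [mr] at hr

theorem card_main_rows : (univ.filter (fun r : Rw p => mr r = true)).card =
    2 * Fintype.card p.I := by
  have := sum_isLeft (A := p.I × Bool) (B := Bool) (fun _ => 1)
  simp only [Finset.sum_const, smul_eq_mul, mul_one, Finset.card_univ, Fintype.card_prod,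
    Fintype.card_bool] at this
  unfold mr
  rw [this, mul_comm]

theorem card_special : (univ.filter (fun b : Bk p n => mb b = false)).card = 2 * n + 1 := by
  have := sum_isRight (A := p.K × Fin n) (B := Fin (n + 1) ⊕ Fin n) (fun _ => 1)
  simp only [Finset.sum_const, smul_eq_mul, mul_one, Finset.card_univ, Fintype.card_sum,
    Fintype.card_fin] at this
  unfold mb
  rw [this]
  ring

/-- the clause `w` -/
theorem w_of (hB : Big p M L) (hn : 1 ≤ n) (hT : 0 < p.Ttot) (Lam : ℕ)
    (hLam : 4900 * (3087 * Fintype.card p.I ^ 2 + 782 * Fintype.card p.K) ≤ Lam)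
    (hW : 25 * p.W4 ≤ 2 * p.Ttot ^ 2)
    (hQ : ∀ j, Lam * (p.C j).card ^ 2 ≤ p.Ttot) (hL : Lam ≤ p.Ttot)
    (hP : ∀ i, Lam * (p.A i).card ^ 3 ≤ p.Ttot ^ 2) :
    2 * nu2 (sys n hB) ≤ num p n M false ^ 2 := by
  classical
  obtain ⟨k0, i0⟩ : p.K × p.I := by
    have h : Nonempty (p.K × p.I) := by
      by_contra hcon
      rw [not_nonempty_iff] at hcon
      have : p.Ttot = 0 := by
        unfold Pat.Ttot
        exact Finset.sum_eq_zero fun j _ => Finset.sum_eq_zero fun i _ => hcon.elim (j, i)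
      omega
    exact h.some
  obtain ⟨q, hq0, hq1, hq2⟩ : ∃ q, 1 ≤ q ∧ (∀ j, (p.C j).card ≤ q) ∧ Lam * q ^ 2 ≤ p.Ttot := by
    obtain ⟨j, -, hj⟩ := Finset.exists_max_image (univ : Finset p.K)
      (fun j => (p.C j).card) ⟨k0, mem_univ _⟩
    refine ⟨max 1 (p.C j).card, le_max_left _ _,
      fun j' => (hj j' (mem_univ _)).trans (le_max_right _ _), ?_⟩
    have h1 := hQ j
    rcases le_total 1 (p.C j).card with h2 | h2
    · rw [max_eq_right h2]
      exact h1
    · rw [max_eq_left h2]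
      omega
  obtain ⟨pp, hp1, hp2⟩ : ∃ pp, (∀ i, (p.A i).card ≤ pp) ∧ Lam * pp ^ 3 ≤ p.Ttot ^ 2 := by
    obtain ⟨i, -, hi⟩ := Finset.exists_max_image (univ : Finset p.I)
      (fun i => (p.A i).card) ⟨i0, mem_univ _⟩
    exact ⟨_, fun i' => hi i' (mem_univ _), hP i⟩
  have hK : 1 ≤ Fintype.card p.K := Fintype.card_pos_iff.2 ⟨k0⟩
  rw [← sys_card n hB]
  refine w_arith p.W4 p.Ttot n (Fintype.card p.I) (Fintype.card p.K) q pp
    (Fintype.card (sys n hB).C) (nu2 (sys n hB)) Lam hn hK hq0 hW hq2 hp2 hLam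
    (by rw [sys_card]; exact num_ge hB) ?_
  exact nu2_le_N (sys n hB) (fun r b => Sf p n M r b)
    (fun q => (QS.pm (q0 p n M) (bal n hB) q).2.2) (fun r => mr r) (fun b => mb b)
    (24 * n ^ 2 * p.W4) (4 * q + 13) (2 * n * Fintype.card p.K * q + 7 * (2 * n + 1))
    (2 * n + 1) (7 * pp) (2 * Fintype.card p.I) (main_sum hB) (fun b => extra_block hB hq1 b)
    (fun r hr => extra_row hB hq1 r hr) card_special.le
    (fun r b hr hb => main_special hB hp1 r b hr hb) card_main_rows.le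

end W

end Vale.Agent.N194P
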