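import Vale.Agent.N194P.Ext
import Mathlib.Algebra.Group.MinimalAxioms

/-!
Twisting the relators of an aspherical system of ports by labels in a group of class two.
-/

namespace Vale.Agent.N194P

open Vale.Agent.P201.S Vale.Agent.P201.S.TF

/-- the central extension of `M` by `Z` with a biadditive cocycle -/
@[ext] structure Tw {M Z : Type} [AddCommGroup M] [AddCommGroup Z] (β : M →+ M →+ Z) where
  z : Z
  m : M

namespace Tw

variable {M Z : Type} [AddCommGroup M] [AddCommGroup Z] {β : M →+ M →+ Z}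

instance : Mul (Tw β) := ⟨fun a b => ⟨a.z + b.z + β a.m b.m, a.m + b.m⟩⟩
instance : One (Tw β) := ⟨⟨0, 0⟩⟩
instance : Inv (Tw β) := ⟨fun a => ⟨-a.z + β a.m a.m, -a.m⟩⟩

@[simp] theorem mul_z (a b : Tw β) : (a * b).z = a.z + b.z + β a.m b.m := rfl
@[simp] theorem mul_m (a b : Tw β) : (a * b).m = a.m + b.m := rfl
@[simp] theorem one_z : (1 : Tw β).z = 0 := rfl
@[simp] theorem one_m : (1 : Tw β).m = 0 := rfl
@[simp] theorem inv_z (a : Tw β) : (a⁻¹).z = -a.z + β a.m a.m := rfl
@[simp] theorem inv_m (a : Tw β) : (a⁻¹).m = -a.m := rfl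

instance : Group (Tw β) := Group.ofLeftAxioms
  (fun a b c => by
    ext
    · simp only [mul_z, mul_m, map_add, AddMonoidHom.add_apply]
      abel
    · simp only [mul_m, add_assoc])
  (fun a => by ext <;> simp)
  (fun a => by ext <;> simp)

theorem cen_comm (z : Z) (a : Tw β) : (⟨z, 0⟩ : Tw β) * a = a * ⟨z, 0⟩ := by
  ext
  · simp [add_comm]
  · simp

theorem conj_eq (a b : Tw β) : a * b * a⁻¹ = ⟨b.z + (β a.m b.m - β b.m a.m), b.m⟩ := by
  ext
  · simp only [mul_z, mul_m, inv_z, inv_m, map_add, map_neg, AddMonoidHom.add_apply]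
    abel
  · simp

end Tw

section Cochain

variable {S : Sys} (σ : Equiv.Perm S.C)

/-- the letter `t` in the free group -/
abbrev tau (S : Sys) : FreeGroup (Let S) := FreeGroup.of Let.t

/-- the cosets of the cyclic subgroup generated by `t` -/
abbrev Cos : Type := Gp σ ⧸ Subgroup.zpowers (prj σ (tau S))

/-- the base coset -/
noncomputable def k0 : Cos σ := ((1 : Gp σ) : Cos σ)

theorem smul_k0_iff (g : Gp σ) : g • k0 σ = k0 σ ↔ ∃ n : ℤ, prj σ (tau S) ^ n = g := by
  rw [k0, MulAction.Quotient.smul_mk, smul_eq_mul, mul_one, eq_comm, QuotientGroup.eq, inv_one,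
    one_mul, Subgroup.mem_zpowers_iff]

theorem exists_sec : ∃ s : Cos σ → FreeGroup (Let S), ∀ κ, prj σ (s κ) • k0 σ = κ := by
  have h : ∀ κ : Cos σ, ∃ v, prj σ v • k0 σ = κ := by
    intro κ
    obtain ⟨g, rfl⟩ := QuotientGroup.mk_surjective κ
    obtain ⟨v, rfl⟩ : ∃ v, prj σ v = g := QuotientGroup.mk_surjective g
    refine ⟨v, ?_⟩
    rw [k0, MulAction.Quotient.smul_mk, smul_eq_mul, mul_one]
  choose s hs using h
  exact ⟨s, hs⟩

variable {V : Type} [AddCommGroup V]

/-- every family of functions on the cosets is the family of values on the relators of a crossed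
homomorphism -/
theorem exists_cochain (has : Asph σ) (ht : Function.Injective (fun n : ℤ => prj σ (tau S) ^ n))
    (ω : S.C → Cos σ → V) : ∃ χ : FreeGroup (Let S) → Cos σ → V,
      (∀ v v' κ, χ (v * v') κ = χ v κ + χ v' ((prj σ v)⁻¹ • κ)) ∧ (∀ c, χ (rel σ c) = ω c) ∧
      χ (tau S) (k0 σ) = 0 := by
  classical
  let Om : Chn σ →+ V :=
    Finsupp.liftAddHom (fun gc => zmultiplesHom V (ω gc.2 (gc.1⁻¹ • k0 σ)))
  have hOm : ∀ g c (m : ℤ), Om (Finsupp.single (g, c) m) = m • ω c (g⁻¹ • k0 σ) := by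
    intro g c m
    simp only [Om, Finsupp.liftAddHom_apply_single, zmultiplesHom_apply]
  have hinv : ∀ (n : ℤ) z, Om (sm (prj σ (tau S) ^ n) z) = Om z := by
    intro n z
    induction z using Finsupp.induction_linear with
    | zero => simp
    | add f g hf hg => rw [map_add, map_add, hf, hg, map_add]
    | single x m =>
      obtain ⟨g, c⟩ := x
      rw [sm_single, hOm, hOm, mul_inv_rev, mul_smul, ← zpow_neg,
        (smul_k0_iff σ _).2 ⟨-n, rfl⟩]
  let nn : FreeGroup (Let S) → ℤ := fun u =>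
    if h : ∃ n : ℤ, prj σ (tau S) ^ n = prj σ u then h.choose else 0
  have hnn : ∀ u (n : ℤ), prj σ (tau S) ^ n = prj σ u → nn u = n := by
    intro u n h
    have h1 : ∃ n : ℤ, prj σ (tau S) ^ n = prj σ u := ⟨n, h⟩
    simp only [nn, dif_pos h1]
    exact ht (h1.choose_spec.trans h.symm)
  let ev : FreeGroup (Let S) → V := fun u => Om (chn σ (u * (tau S ^ nn u)⁻¹))
  have hev : ∀ r (n : ℤ), prj σ r = 1 → ev (r * tau S ^ n) = Om (chn σ r) := by
    intro r n hr
    have h1 : nn (r * tau S ^ n) = n := hnn _ _ (by rw [map_mul, hr, one_mul, map_zpow])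
    simp only [ev, h1, mul_inv_cancel_right]
  have hdec : ∀ u, prj σ u • k0 σ = k0 σ → ∃ (r : FreeGroup (Let S)) (n : ℤ), prj σ r = 1 ∧
      u = r * tau S ^ n := by
    intro u hu
    obtain ⟨n, hn⟩ := (smul_k0_iff σ _).1 hu
    refine ⟨u * (tau S ^ n)⁻¹, n, ?_, by rw [inv_mul_cancel_right]⟩
    rw [map_mul, map_inv, map_zpow, hn, mul_inv_cancel]
  have hadd : ∀ u u', prj σ u • k0 σ = k0 σ → prj σ u' • k0 σ = k0 σ →
      ev (u * u') = ev u + ev u' := by
    intro u u' hu hu'
    obtain ⟨r, n, hr, rfl⟩ := hdec u hu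
    obtain ⟨r', n', hr', rfl⟩ := hdec u' hu'
    have h1 : r * tau S ^ n * (r' * tau S ^ n') =
        (r * (tau S ^ n * r' * (tau S ^ n)⁻¹)) * tau S ^ (n + n') := by
      rw [zpow_add]
      group
    have h2 : prj σ (tau S ^ n * r' * (tau S ^ n)⁻¹) = 1 := by
      rw [map_mul, map_mul, hr', mul_one, map_inv, mul_inv_cancel]
    rw [h1, hev _ _ (by rw [map_mul, hr, h2, mul_one]), hev _ _ hr, hev _ _ hr',
      chn_mul σ has hr h2, chn_conj σ has hr', map_add, map_zpow, hinv]
  obtain ⟨s, hs⟩ := exists_sec σ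
  have hmem : ∀ v κ, prj σ ((s κ)⁻¹ * v * s ((prj σ v)⁻¹ • κ)) • k0 σ = k0 σ := by
    intro v κ
    rw [map_mul, map_mul, mul_smul, hs, mul_smul, smul_inv_smul, map_inv, inv_smul_eq_iff, hs]
  have hev1 : ev 1 = 0 := by
    have h1 := hev 1 0 (map_one _)
    rw [zpow_zero, mul_one, chn_one σ has, map_zero] at h1
    exact h1
  refine ⟨fun v κ => ev ((s κ)⁻¹ * v * s ((prj σ v)⁻¹ • κ)), ?_, ?_, ?_⟩
  · intro v v' κ
    beta_reduce
    rw [← hadd _ _ (hmem v κ) (hmem v' _), map_mul, mul_inv_rev, mul_smul]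
    congr 1
    group
  · intro c
    funext κ
    have h1 := hev ((s κ)⁻¹ * rel σ c * (s κ)⁻¹⁻¹) 0 (by
      rw [map_mul, map_mul, prj_relc, mul_one, ← map_mul, mul_inv_cancel, map_one])
    rw [zpow_zero, mul_one, chn_rel σ has, hOm, one_smul, map_inv, inv_inv, inv_inv, hs] at h1
    beta_reduce
    rw [prj_relc, inv_one, one_smul]
    exact h1
  · have h0 : prj σ (tau S) • k0 σ = k0 σ := (smul_k0_iff σ _).2 ⟨1, zpow_one _⟩
    have h1 : (prj σ (tau S))⁻¹ • k0 σ = k0 σ := by rw [inv_smul_eq_iff, h0]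
    have h2 : prj σ (s (k0 σ))⁻¹ • k0 σ = k0 σ := by rw [map_inv, inv_smul_eq_iff, hs]
    have h3 : ev (tau S) = 0 := by
      have h4 := hev 1 1 (map_one _)
      rw [zpow_one, one_mul, chn_one σ has, map_zero] at h4
      exact h4
    have h5 := hadd _ _ h2 (hs (k0 σ))
    rw [inv_mul_cancel, hev1] at h5
    beta_reduce
    rw [h1, hadd _ _ (by rw [map_mul, mul_smul, h0, h2]) (hs _), hadd _ _ h2 h0, h3, add_zero]
    exact h5.symm

end Cochain

section Forms

variable {K V Z : Type} [AddCommGroup V] [AddCommGroup Z] (B : V →+ V →+ Z)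

/-- pairing with a function on the left -/
noncomputable def bl (χ : K → V) : (K →₀ V) →+ Z := Finsupp.liftAddHom (fun κ => B (χ κ))

/-- pairing with a function on the right -/
noncomputable def br (χ : K → V) : (K →₀ V) →+ Z := Finsupp.liftAddHom (fun κ => B.flip (χ κ))

theorem bl_single (χ : K → V) (κ : K) (v : V) : bl B χ (Finsupp.single κ v) = B (χ κ) v := by
  simp only [bl, Finsupp.liftAddHom_apply_single]

theorem br_single (χ : K → V) (κ : K) (v : V) : br B χ (Finsupp.single κ v) = B v (χ κ) := by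
  simp only [br, Finsupp.liftAddHom_apply_single, AddMonoidHom.flip_apply]

/-- the orthogonal sum of copies of the form -/
noncomputable def bM : (K →₀ V) →+ (K →₀ V) →+ Z := AddMonoidHom.mk' (fun m => bl B m) (by
  intro a b
  ext κ v
  simp [bl_single])

theorem bM_eq (m m' : K →₀ V) : bM B m m' = bl B m m' := rfl

theorem bM_eq' (m m' : K →₀ V) : bM B m m' = br B m' m := by
  classical
  induction m using Finsupp.induction_linear with
  | zero => simp
  | add f g hf hg => rw [map_add, AddMonoidHom.add_apply, hf, hg, map_add]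
  | single κ v =>
    rw [br_single]
    induction m' using Finsupp.induction_linear with
    | zero => simp
    | add f g hf hg => rw [map_add, hf, hg, Finsupp.add_apply, map_add]
    | single κ' v' =>
      rw [bM_eq, bl_single, Finsupp.single_apply, Finsupp.single_apply]
      by_cases h : κ = κ'
      · simp [h]
      · simp [h, Ne.symm h]

variable {G : Type} [Group G] [MulAction G K]

/-- translation of finitely supported functions -/
noncomputable def act (g : G) : (K →₀ V) →+ (K →₀ V) :=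
  Finsupp.mapDomain.addMonoidHom (fun κ => g • κ)

theorem act_single (g : G) (κ : K) (v : V) :
    act g (Finsupp.single κ v) = Finsupp.single (g • κ) v := by
  simp only [act, Finsupp.mapDomain.addMonoidHom_apply, Finsupp.mapDomain_single]

theorem act_one (m : K →₀ V) : act (1 : G) m = m := by
  induction m using Finsupp.induction_linear with
  | zero => simp
  | add f g hf hg => rw [map_add, hf, hg]
  | single κ v => rw [act_single, one_smul]

theorem act_mul (g h : G) (m : K →₀ V) : act (g * h) m = act g (act h m) := by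
  induction m using Finsupp.induction_linear with
  | zero => simp
  | add f g hf hg => rw [map_add, hf, hg, map_add, map_add]
  | single κ v => rw [act_single, act_single, act_single, mul_smul]

theorem act_apply (g : G) (m : K →₀ V) (κ : K) : act g m (g • κ) = m κ :=
  Finsupp.mapDomain_apply (MulAction.injective g) m κ

theorem bM_act (g : G) (m m' : K →₀ V) : bM B (act g m) (act g m') = bM B m m' := by
  induction m' using Finsupp.induction_linear with
  | zero => simp
  | add f g hf hg => rw [map_add, map_add, hf, hg, map_add]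
  | single κ v => rw [act_single, bM_eq, bM_eq, bl_single, bl_single, act_apply]

/-- commutator pairing with a function -/
noncomputable def cm (χ : K → V) : (K →₀ V) →+ Z := bl B χ - br B χ

theorem cm_single (χ : K → V) (κ : K) (v : V) :
    cm B χ (Finsupp.single κ v) = B (χ κ) v - B v (χ κ) := by
  rw [cm, AddMonoidHom.sub_apply, bl_single, br_single]

theorem cm_coe (m m' : K →₀ V) : cm B m m' = bM B m m' - bM B m' m := by
  rw [cm, AddMonoidHom.sub_apply, bM_eq, bM_eq' B m' m]

variable {F : Type} [Group F] (pr : F →* G) (χ : F → K → V)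

/-- the action of `F` on the central product of the copies -/
@[reducible] noncomputable def twAct (hχ : ∀ v v' κ, χ (v * v') κ = χ v κ + χ v' ((pr v)⁻¹ • κ)) :
    MulDistribMulAction F (Tw (bM (K := K) B)) where
  smul v a := ⟨a.z + cm B (χ v) (act (pr v) a.m), act (pr v) a.m⟩
  one_smul a := by
    have h1 : ∀ κ, χ 1 κ = 0 := by
      intro κ
      have h2 := hχ 1 1 κ
      rw [mul_one, map_one, inv_one, one_smul] at h2
      exact left_eq_add.1 h2
    have h3 : ∀ m, cm B (χ 1) m = 0 := by
      intro m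
      induction m using Finsupp.induction_linear with
      | zero => simp
      | add f g hf hg => rw [map_add, hf, hg, add_zero]
      | single κ v => simp [cm_single, h1]
    change (⟨a.z + cm B (χ 1) (act (pr 1) a.m), act (pr 1) a.m⟩ : Tw (bM B)) = a
    rw [h3, map_one, act_one, add_zero]
  mul_smul v v' a := by
    have h3 : ∀ m, cm B (χ (v * v')) (act (pr v) m) =
        cm B (χ v') m + cm B (χ v) (act (pr v) m) := by
      intro m
      induction m using Finsupp.induction_linear with
      | zero => simp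
      | add f g hf hg =>
        simp only [map_add, hf, hg]
        abel
      | single κ x =>
        rw [act_single, cm_single, cm_single, cm_single, hχ, inv_smul_smul, map_add, map_add,
          AddMonoidHom.add_apply]
        abel
    change (⟨a.z + cm B (χ (v * v')) (act (pr (v * v')) a.m), act (pr (v * v')) a.m⟩ : Tw (bM B)) =
      ⟨a.z + cm B (χ v') (act (pr v') a.m) + cm B (χ v) (act (pr v) (act (pr v') a.m)),
        act (pr v) (act (pr v') a.m)⟩
    rw [map_mul, act_mul, h3, add_assoc]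
  smul_mul v a b := by
    change (⟨(a * b).z + cm B (χ v) (act (pr v) (a * b).m), act (pr v) (a * b).m⟩ : Tw (bM B)) =
      ⟨a.z + cm B (χ v) (act (pr v) a.m), act (pr v) a.m⟩ *
        ⟨b.z + cm B (χ v) (act (pr v) b.m), act (pr v) b.m⟩
    ext1
    · simp only [Tw.mul_z, Tw.mul_m, map_add, bM_act]
      abel
    · simp only [Tw.mul_m, map_add]
  smul_one v := by
    change (⟨(0 : Z) + cm B (χ v) (act (pr v) (0 : K →₀ V)), act (pr v) (0 : K →₀ V)⟩ :
      Tw (bM B)) = ⟨0, 0⟩
    simp

/-- the action as a homomorphism to the automorphism group -/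
noncomputable def twAut (hχ : ∀ v v' κ, χ (v * v') κ = χ v κ + χ v' ((pr v)⁻¹ • κ)) :
    F →* MulAut (Tw (bM (K := K) B)) :=
  @MulDistribMulAction.toMulAut F _ _ _ (twAct B pr χ hχ)

theorem twAut_apply (hχ : ∀ v v' κ, χ (v * v') κ = χ v κ + χ v' ((pr v)⁻¹ • κ)) (v : F)
    (a : Tw (bM (K := K) B)) :
    twAut B pr χ hχ v a = ⟨a.z + cm B (χ v) (act (pr v) a.m), act (pr v) a.m⟩ := rfl

/-- the copy at a point -/
noncomputable def base (κ : K) : Tw B →* Tw (bM (K := K) B) :=
  MonoidHom.mk' (fun a => ⟨a.z, Finsupp.single κ a.m⟩) (by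
    intro a b
    ext1
    · simp only [Tw.mul_z, bM_eq, bl_single, Finsupp.single_eq_same]
    · simp only [Tw.mul_m, Finsupp.single_add])

theorem base_apply (κ : K) (a : Tw B) : base B κ a = ⟨a.z, Finsupp.single κ a.m⟩ := rfl

end Forms

theorem val_half {S : Sys} (q : Port S) : val (half q) =
    FreeGroup.of (Let.x (S.rc q)) * tau S ^ S.ht q * FreeGroup.of (Let.y (S.blk q)) := by
  unfold half
  rw [← List.singleton_append, Vale.Agent.P194.M.val_append, Vale.Agent.P194.M.val_append,
    ← mul_assoc, Vale.Agent.P194.M.val_tw_eq]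
  rfl

/-- The relators of an aspherical system can be twisted by arbitrary labels. -/
theorem twist {S : Sys} (σ : Equiv.Perm S.C) (has : Asph σ)
    (ht : Function.Injective (fun n : ℤ => prj σ (tau S) ^ n))
    {V Z : Type} [AddCommGroup V] [AddCommGroup Z] (B : V →+ V →+ Z) (lab : Port S → Tw B) :
    ∃ (Γ : Type) (_ : Group Γ) (ι : Tw B →* Γ) (T : Γ) (X : S.R → Γ) (Y : S.B → Γ),
      (∀ a, Commute (ι a) T) ∧ (∀ z g, ι ⟨z, 0⟩ * g = g * ι ⟨z, 0⟩) ∧
      (∀ (z z' : Z) (n n' : ℤ), ι ⟨z, 0⟩ * T ^ n = ι ⟨z', 0⟩ * T ^ n' → z = z') ∧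
      ∀ c, X (S.rc (c, true)) * (ι (lab (c, true)) * T ^ S.ht (c, true)) * Y (S.blk (c, true)) =
        X (S.rc (σ c, false)) * (ι (lab (σ c, false)) * T ^ S.ht (σ c, false)) *
          Y (S.blk (σ c, false)) := by
  classical
  let x : Port S → FreeGroup (Let S) := fun q => FreeGroup.of (Let.x (S.rc q))
  let om : S.C → (Cos σ →₀ V) := fun c =>
    - act (prj σ (x (c, true))) (Finsupp.single (k0 σ) (lab (c, true)).m) +
      act (prj σ (x (σ c, false))) (Finsupp.single (k0 σ) (lab (σ c, false)).m)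
  obtain ⟨χ, hχ, hrel, h0⟩ := exists_cochain σ has ht (fun c => (om c : Cos σ → V))
  let φ := twAut B (prj σ) χ hχ
  let w : S.C → Tw (bM (K := Cos σ) B) := fun c =>
    (φ (x (c, true)) (base B (k0 σ) (lab (c, true))))⁻¹ *
      φ (x (σ c, false)) (base B (k0 σ) (lab (σ c, false)))
  have hwm : ∀ c, (w c).m = om c := fun c => rfl
  have hw : ∀ c n, φ (rel σ c) n = w c * n * (w c)⁻¹ := by
    intro c n
    rw [Tw.conj_eq, hwm, ← cm_coe, twAut_apply, prj_relc, act_one, hrel]
  obtain ⟨Γ, _, ι, ψ, π, hι, hψ, hψr, hπι, hπψ, hgen⟩ := ext_exists has hw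
  have hcz : ∀ z : Z, base B (k0 σ) ⟨z, 0⟩ = ⟨z, 0⟩ := by
    intro z
    rw [base_apply, Finsupp.single_zero]
  refine ⟨Γ, inferInstance, ι.comp (base B (k0 σ)), ψ (tau S), fun r => ψ (FreeGroup.of (Let.x r)),
    fun b => ψ (FreeGroup.of (Let.y b)), ?_, ?_, ?_, ?_⟩
  · intro a
    have h1 : φ (tau S) (base B (k0 σ) a) = base B (k0 σ) a := by
      have h2 : prj σ (tau S) • k0 σ = k0 σ := (smul_k0_iff σ _).2 ⟨1, zpow_one _⟩
      rw [twAut_apply, base_apply, act_single, h2, cm_single, h0]
      simp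
    have h3 := hψ (tau S) (base B (k0 σ) a)
    rw [h1] at h3
    exact h3.symm
  · intro z g
    obtain ⟨n, v, rfl⟩ := hgen g
    have h1 : φ v ⟨z, 0⟩ = ⟨z, 0⟩ := by
      rw [twAut_apply]
      simp
    rw [MonoidHom.comp_apply, hcz, mul_assoc, hψ, h1, ← mul_assoc, ← mul_assoc, ← map_mul,
      ← map_mul, Tw.cen_comm]
  · intro z z' n n' h
    have h1 := congrArg π h
    simp only [MonoidHom.comp_apply, map_mul, map_zpow, hπι, hπψ, one_mul] at h1
    have h2 : n = n' := ht h1
    rw [h2, mul_left_inj, MonoidHom.comp_apply, MonoidHom.comp_apply, hcz, hcz] at h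
    exact congrArg Tw.z (hι h)
  · intro c
    have h1 := hψr c
    have h2 : Vale.Agent.P201.S.mt σ (c, true) = (σ c, false) := by simp [Vale.Agent.P201.S.mt]
    rw [rel, val_relw, h2, val_half, val_half] at h1
    simp only [map_mul, map_inv, map_zpow, w] at h1
    have h3 := hψ (x (c, true)) (base B (k0 σ) (lab (c, true)))
    have h4 := hψ (x (σ c, false)) (base B (k0 σ) (lab (σ c, false)))
    simp only [MonoidHom.comp_apply]
    rw [← mul_assoc, ← mul_assoc]
    rw [h3, h4]
    rw [mul_inv_eq_iff_eq_mul] at h1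
    simp only [mul_assoc] at h1 ⊢
    rw [h1]
    simp only [x, mul_inv_cancel_left]

end Vale.Agent.N194P
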